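import Mathlib.Analysis.Normed.Module.DoubleDual
import Mathlib.Analysis.Seminorm
import Mathlib.Data.EReal.Basic
import Mathlib.LinearAlgebra.FiniteDimensional.Defs

/-!
Asymptotic uniform convexity and asymptotic midpoint uniform convexity of equivalent norms.
-/

namespace Vale.Agent.P069

noncomputable section

variable {X : Type} [NormedAddCommGroup X] [NormedSpace ℝ X]

/-- The closed subspaces of finite codimension. -/
def IsCofinite (F : Submodule ℝ X) : Prop :=
  IsClosed (F : Set X) ∧ FiniteDimensional ℝ (X ⧸ F)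

/-- The modulus of asymptotic uniform convexity, computed in the extended reals. -/
def aucModulus (N : X → ℝ) (t : ℝ) : EReal :=
  ⨅ (x : X) (_ : N x = 1), ⨆ (F : Submodule ℝ X) (_ : IsCofinite F),
    ⨅ (y : X) (_ : y ∈ F ∧ N y = 1), ((N (x + t • y) - 1 : ℝ) : EReal)

/-- The modulus of asymptotic midpoint uniform convexity, computed in the extended reals. -/
def amucModulus (N : X → ℝ) (t : ℝ) : EReal :=
  ⨅ (x : X) (_ : N x = 1), ⨆ (F : Submodule ℝ X) (_ : IsCofinite F),
    ⨅ (y : X) (_ : y ∈ F ∧ N y = 1),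
      ((max (N (x + t • y)) (N (x - t • y)) - 1 : ℝ) : EReal)

/-- An equivalent norm. -/
def IsEquivNorm (N : Seminorm ℝ X) : Prop :=
  ∃ c C : ℝ, 0 < c ∧ 0 < C ∧ ∀ x : X, c * ‖x‖ ≤ N x ∧ N x ≤ C * ‖x‖

variable (X)

/-- Some equivalent norm is asymptotically uniformly convex. -/
def AUCRenormable : Prop :=
  ∃ N : Seminorm ℝ X, IsEquivNorm N ∧ ∀ t : ℝ, 0 < t → 0 < aucModulus (fun x => N x) t

/-- Some equivalent norm is asymptotically midpoint uniformly convex. -/
def AMUCRenormable : Prop :=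
  ∃ N : Seminorm ℝ X, IsEquivNorm N ∧ ∀ t : ℝ, 0 < t → 0 < amucModulus (fun x => N x) t

end

end Vale.Agent.P069
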