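import Vale.Agent.P069.Proj
import Mathlib.Topology.Algebra.InfiniteSum.Real
import Mathlib.Algebra.Order.Chebyshev

/-!
Every continuous functional on the tree space is approximated by its restrictions to finite
ancestor-closed sets of nodes.
-/

namespace Vale.Agent.P069

open Finset Node

noncomputable section

theorem jt_sum_apply {ι : Type*} (s : Finset ι) (G : ι → JT) (v : Node) :
    (∑ i ∈ s, G i) v = ∑ i ∈ s, G i v := by
  classical
  induction s using Finset.induction_on with
  | empty => simp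
  | insert a s ha ih => rw [Finset.sum_insert ha, Finset.sum_insert ha, jt_add_apply, ih]

theorem inc_one_unit_sum {ι : Type*} (s : Finset ι) (G : ι → JT) (a : ι → ℝ) (p : Seg) :
    inc (∑ i ∈ s, a i • G i : JT) p = ∑ i ∈ s, a i * inc (G i) p := by
  simp only [inc, jt_sum_apply, jt_smul_apply, ← Finset.sum_sub_distrib, mul_sub]

open scoped Classical in
/-- Cumulative function of the unit vector at a node. -/
def unitFun (v : Node) : Node → ℝ := fun u => if v ∈ cover (u, u.dep) then 1 else 0

theorem unitFun_base (v u : Node) (h : u.dep = 0) : unitFun v u = 0 := by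
  classical
  refine if_neg ?_
  rintro ⟨j, -, hj, -⟩
  exact absurd hj (by show ¬ j < u.dep; omega)

theorem anc_inj {u : Node} {i j : ℕ} (hi : i ≤ u.dep) (hj : j ≤ u.dep)
    (h : u.anc i = u.anc j) : i = j := by
  have := congrArg Node.dep h
  simp only [dep_anc] at this
  omega

open scoped Classical in
theorem inc_unitFun (v : Node) (p : Seg) :
    inc (unitFun v) p = if v ∈ cover p then 1 else 0 := by
  obtain ⟨u, k⟩ := p
  by_cases h : v ∈ cover (u, k)
  · obtain ⟨j, hj, hd, rfl⟩ := h
    have h1 : u.anc j ∈ cover (u, u.dep) := ⟨j, hd, hd, rfl⟩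
    have h2 : u.anc j ∉ cover (u.anc k, (u.anc k).dep) := by
      rintro ⟨i, -, hi, he⟩
      simp only [dep_anc, anc_anc] at hi he
      have := anc_inj (u := u) (by omega) (le_of_lt hd) he
      exact absurd this (by show k + i ≠ j; exact Nat.ne_of_gt (lt_of_lt_of_le hj (Nat.le_add_right k i)))
    rw [if_pos ⟨j, hj, hd, rfl⟩]
    simp only [dep_anc] at h2
    simp [inc, unitFun, h1, h2]
  · rw [if_neg h]
    have : v ∈ cover (u, u.dep) ↔ v ∈ cover (u.anc k, (u.anc k).dep) := by
      constructor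
      · rintro ⟨j, hj, hd, rfl⟩
        have hkj : k ≤ j := not_lt.1 fun hlt => h ⟨j, hlt, hd, rfl⟩
        have hd' : j < u.dep := hd
        exact ⟨j - k, by simp; omega, by simp; omega, by simp [Nat.add_sub_cancel' hkj]⟩
      · rintro ⟨j, hj, hd, rfl⟩
        simp only [dep_anc] at hj hd
        exact ⟨k + j, by show k + j < u.dep; omega, by show k + j < u.dep; omega, by simp⟩
    simp [inc, unitFun, this]

theorem sum_inc_unitFun_sq_le (v : Node) (m : ℕ) (S : Fin m → Seg) (hS : DisjFam S) :
    ∑ i, inc (unitFun v) (S i) ^ 2 ≤ 1 ^ 2 := by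
  classical
  by_cases h : ∃ i, v ∈ cover (S i)
  · obtain ⟨i, hi⟩ := h
    rw [Finset.sum_eq_single_of_mem i (Finset.mem_univ i)]
    · simp [inc_unitFun, hi]
    · intro j _ hj
      have : v ∉ cover (S j) := fun h' => Set.disjoint_left.1 (hS hj) h' hi
      simp [inc_unitFun, this]
  · push Not at h
    simp [inc_unitFun, h]

/-- The unit vector at a node. -/
def unit (v : Node) : JT := mkJT (unitFun v) 1 (unitFun_base v) (sum_inc_unitFun_sq_le v)

theorem norm_unit_le (v : Node) : ‖unit v‖ ≤ 1 := (mkJT_norm_le _ _ _ _).trans (by norm_num)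

open scoped Classical in
theorem inc_unit (v : Node) (p : Seg) : inc (unit v) p = if v ∈ cover p then 1 else 0 :=
  inc_unitFun v p

open scoped Classical in
theorem inc_comb_one (D : Finset Node) (a : Node → ℝ) (u : Node) (hu : 0 < u.dep) :
    inc (∑ v ∈ D, a v • unit v : JT) (u, 1) = if u ∈ D then a u else 0 := by
  have key : ∀ v : Node, v ∈ cover (u, 1) ↔ u = v := by
    intro v
    refine ⟨fun h => (Set.mem_singleton_iff.1 (cover_one_subset u h)).symm, ?_⟩
    rintro rfl
    exact ⟨0, Nat.zero_lt_one, hu, anc_zero _⟩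
  rw [inc_one_unit_sum]
  simp [inc_unit, key, Finset.sum_ite_eq]

theorem sum_one_sq_le (F : JT) (D : Finset Node) : ∑ v ∈ D, inc F (v, 1) ^ 2 ≤ ‖F‖ ^ 2 :=
  sum_finset_inc_sq_le D F (fun v => (v, 1)) fun i _ j _ h =>
    disjFam_one (fun w : Node => w) Function.injective_id h

theorem inc_telescope (F : Node → ℝ) (v : Node) (k : ℕ) :
    inc F (v, k) = ∑ j ∈ range k, inc F (v.anc j, 1) := by
  induction k with
  | zero => simp [inc]
  | succ k ih => rw [inc_split, ih, Finset.sum_range_succ]

theorem inc_min_dep (F : Node → ℝ) (v : Node) (k : ℕ) :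
    inc F (v, k) = inc F (v, min k v.dep) := by
  rcases le_or_gt k v.dep with h | h
  · rw [min_eq_left h]
  · simp only [inc, min_eq_right h.le, v.anc_of_dep_le h.le]

/-- On trees of bounded height the norm is dominated by the square function. -/
theorem norm_sq_le_of_bounded (G : JT) (N : ℕ) (C : ℝ) (hC : 0 ≤ C)
    (hz : ∀ u : Node, N ≤ u.n → G u = 0)
    (hD : ∀ D : Finset Node, ∑ v ∈ D, inc G (v, 1) ^ 2 ≤ C) :
    ‖G‖ ^ 2 ≤ N * C := by
  classical
  have h : ‖G‖ ≤ Real.sqrt (N * C) := by
    refine jt_norm_le (Real.sqrt_nonneg _) fun m S hS => ?_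
    rw [Real.sq_sqrt (by positivity)]
    let T : Fin m → Finset Node := fun i =>
      (range (min (S i).2 (S i).1.dep)).image (S i).1.anc
    have hT : ∀ i, (T i : Set Node) ⊆ cover (S i) := by
      intro i u hu
      simp only [T, coe_image, Set.mem_image, mem_coe, mem_range, lt_min_iff] at hu
      obtain ⟨j, hj, rfl⟩ := hu
      exact anc_mem_cover _ hj.1 hj.2
    have hdisj : (↑(univ : Finset (Fin m)) : Set (Fin m)).PairwiseDisjoint T := by
      intro i _ j _ hij
      rw [Function.onFun, ← Finset.disjoint_coe]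
      exact (hS hij).mono (hT i) (hT j)
    calc ∑ i, inc G (S i) ^ 2 ≤ ∑ i, (N : ℝ) * ∑ u ∈ T i, inc G (u, 1) ^ 2 := by
          refine Finset.sum_le_sum fun i _ => ?_
          rcases le_or_gt N (S i).1.n with h | h
          · have : inc G (S i) = 0 := by
              simp only [inc]
              rw [hz _ h, hz _ (show N ≤ ((S i).1.anc (S i).2).n from h), sub_zero]
            rw [this]
            calc (0:ℝ) ^ 2 = 0 := by norm_num
              _ ≤ _ := mul_nonneg (Nat.cast_nonneg _) (Finset.sum_nonneg fun v _ => sq_nonneg _)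
          · have he : inc G (S i) = ∑ u ∈ T i, inc G (u, 1) := by
              rw [Finset.sum_image]
              · exact (inc_min_dep _ _ _).trans (inc_telescope _ _ _)
              · intro a ha b hb hab
                simp only [coe_range, Set.mem_Iio, lt_min_iff] at ha hb
                exact anc_inj ha.2.le hb.2.le hab
            have hcard : (#(T i) : ℝ) ≤ N := by
              have h1 : #(T i) ≤ N := by
                refine Finset.card_image_le.trans ?_
                rw [card_range]
                exact ((min_le_right _ _).trans (dep_le _)).trans h.le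
              exact_mod_cast h1
            rw [he]
            refine (sq_sum_le_card_mul_sum_sq).trans ?_
            gcongr
      _ = (N : ℝ) * ∑ u ∈ univ.biUnion T, inc G (u, 1) ^ 2 := by
          rw [Finset.sum_biUnion hdisj, Finset.mul_sum]
      _ ≤ (N : ℝ) * C := by gcongr; exact hD _
  have := pow_le_pow_left₀ (norm_nonneg G) h 2
  rwa [Real.sq_sqrt (by positivity)] at this

/-- The trees of height less than `N`. -/
def blockCut (N : ℕ) : Cut where
  mem v := v.n < N ∨ v.dep = 0
  closed v k h := by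
    rcases h with h | h
    · exact Or.inl h
    · exact Or.inr (by simp [h])
  base v h := Or.inr h

theorem blockCut_proj_of_lt (N : ℕ) (F : JT) {v : Node} (h : v.n < N) :
    (blockCut N).proj F v = F v := by
  simp [(blockCut N).exit_eq_self (v := v) (Or.inl h)]

theorem blockCut_proj_of_le (N : ℕ) (F : JT) {v : Node} (h : N ≤ v.n) :
    (blockCut N).proj F v = 0 := by
  rw [Cut.proj_apply]
  refine jt_base F _ ?_
  rcases (blockCut N).exit_mem v with h' | h'
  · exact absurd h' (by simp [Cut.exit]; omega)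
  · exact h'

theorem inc_blockCut_proj (N : ℕ) (F : JT) (p : Seg) :
    inc ((blockCut N).proj F) p = if p.1.n < N then inc F p else 0 := by
  split_ifs with h
  · simp only [inc]
    rw [blockCut_proj_of_lt N F h,
      blockCut_proj_of_lt N F (show (p.1.anc p.2).n < N from h)]
  · simp only [inc]
    rw [blockCut_proj_of_le N F (not_lt.1 h),
      blockCut_proj_of_le N F (show N ≤ (p.1.anc p.2).n from not_lt.1 h), sub_zero]

theorem inc_blockCut_rest (N : ℕ) (F : JT) (p : Seg) :
    inc (F - (blockCut N).proj F : JT) p = if p.1.n < N then 0 else inc F p := by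
  have : inc (F - (blockCut N).proj F : JT) p = inc F p - inc ((blockCut N).proj F) p := by
    simp [inc]; ring
  rw [this, inc_blockCut_proj]
  split_ifs <;> ring

theorem exists_block_small (F : JT) {ε : ℝ} (hε : 0 < ε) :
    ∃ N, ‖F - (blockCut N).proj F‖ ≤ ε := by
  classical
  obtain ⟨m, S, hS, hsum⟩ := exists_fam_near F (pow_pos hε 2)
  refine ⟨(univ.sup fun i => (S i).1.n) + 1, jt_norm_le hε.le fun m' R hR => ?_⟩
  set N := (univ.sup fun i => (S i).1.n) + 1
  have hSn : ∀ i, (S i).1.n < N := fun i =>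
    Nat.lt_succ_of_le (Finset.le_sup (f := fun i => (S i).1.n) (mem_univ i))
  set s : Finset (Fin m') := univ.filter fun j => N ≤ (R j).1.n
  have hsum' : ∑ i, inc F (S i) ^ 2 + ∑ j : s, inc F (R j) ^ 2 ≤ ‖F‖ ^ 2 := by
    have hd : DisjFam (Sum.elim S fun j : s => R j) := by
      have key : ∀ i (j : s), Disjoint (cover (S i)) (cover (R j)) := by
        intro i j
        rw [Set.disjoint_left]
        intro u hu hu'
        have hj := (mem_filter.1 j.2).2
        rw [← n_eq_of_mem_cover hu', n_eq_of_mem_cover hu] at hj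
        exact absurd (hSn i) (not_lt.2 hj)
      rintro (i | i) (j | j) hij
      · exact hS (fun h => hij (congrArg Sum.inl h))
      · exact key i j
      · exact (key j i).symm
      · exact hR (fun h => hij (congrArg Sum.inr (Subtype.ext h)))
    simpa using sum_inc_sq_le F _ hd
  have : ∑ j, inc (F - (blockCut N).proj F : JT) (R j) ^ 2 = ∑ j : s, inc F (R j) ^ 2 := by
    rw [Finset.sum_coe_sort s (fun j => inc F (R j) ^ 2), Finset.sum_filter]
    refine Finset.sum_congr rfl fun j _ => ?_
    rw [inc_blockCut_rest]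
    by_cases h : (R j).1.n < N
    · simp [h, not_le.2 h]
    · simp [h, not_lt.1 h]
  rw [this]
  linarith

theorem exists_near_norm {E : Type*} [NormedAddCommGroup E] [NormedSpace ℝ E]
    (x : StrongDual ℝ E) {ε : ℝ} (hε : 0 < ε) : ∃ f : E, ‖f‖ ≤ 1 ∧ ‖x‖ - ε ≤ x f := by
  by_cases h : ‖x‖ - ε < 0
  · exact ⟨0, by simp, by simpa using h.le⟩
  · obtain ⟨f, hf, hxf⟩ := x.exists_lt_apply_of_lt_opNorm (r := ‖x‖ - ε) (by linarith)
    rcases le_or_gt 0 (x f) with h0 | h0
    · exact ⟨f, hf.le, by rw [Real.norm_eq_abs, abs_of_nonneg h0] at hxf; linarith⟩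
    · exact ⟨-f, by simpa using hf.le, by
        rw [Real.norm_eq_abs, abs_of_neg h0] at hxf; rw [map_neg]; linarith⟩

theorem exists_block_functional (x : StrongDual ℝ JT) {η : ℝ} (hη : 0 < η) :
    ∃ N, ∀ F : JT, |x (F - (blockCut N).proj F)| ≤ η * ‖F‖ := by
  classical
  set L := ‖x‖ with hL
  set ε := min η (η ^ 2 / (4 * (L + 1))) with hεdef
  have hL0 : 0 ≤ L := norm_nonneg x
  have hε : 0 < ε := lt_min hη (by positivity)
  obtain ⟨f, hf, hxf⟩ := exists_near_norm x hε
  obtain ⟨N, hN⟩ := exists_block_small f (show (0:ℝ) < ε / (L + 1) by positivity)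
  refine ⟨N, fun F => ?_⟩
  set f' := (blockCut N).proj f
  set R := F - (blockCut N).proj F
  set a := x f'
  set b := x R
  have ha : L - 2 * ε ≤ a := by
    have h1 : |x (f - f')| ≤ L * (ε / (L + 1)) := by
      rw [← Real.norm_eq_abs]
      exact (x.le_opNorm _).trans (by gcongr)
    have h2 : L * (ε / (L + 1)) ≤ ε := by
      rw [mul_div_assoc', div_le_iff₀ (by positivity)]; nlinarith
    rw [map_sub] at h1
    have := (le_abs_self _).trans (h1.trans h2)
    linarith
  have horth : ∀ μ : ℝ, ‖a • f' + μ • R‖ ^ 2 ≤ a ^ 2 + μ ^ 2 * ‖F‖ ^ 2 := by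
    intro μ
    have hb : ‖a • f' + μ • R‖ ≤ Real.sqrt (a ^ 2 + μ ^ 2 * ‖F‖ ^ 2) := by
      refine jt_norm_le (Real.sqrt_nonneg _) fun m S hS => ?_
      rw [Real.sq_sqrt (by positivity)]
      have e : ∀ i, inc (a • f' + μ • R : JT) (S i) ^ 2 =
          (if (S i).1.n < N then a ^ 2 * inc f (S i) ^ 2 else μ ^ 2 * inc F (S i) ^ 2) := by
        intro i
        have : inc (a • f' + μ • R : JT) (S i) = a * inc f' (S i) + μ * inc R (S i) := by
          simp [inc]; ring
        rw [this, inc_blockCut_proj, inc_blockCut_rest]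
        split_ifs <;> ring
      simp only [e]
      rw [Finset.sum_ite, ← Finset.mul_sum, ← Finset.mul_sum]
      have h1 := sum_finset_inc_sq_le (univ.filter fun i => (S i).1.n < N) f S
        (fun i _ j _ h => hS h)
      have h2 := sum_finset_inc_sq_le (univ.filter fun i => ¬(S i).1.n < N) F S
        (fun i _ j _ h => hS h)
      have h3 : ‖f‖ ^ 2 ≤ 1 := pow_le_one₀ (norm_nonneg f) hf
      nlinarith [sq_nonneg a, sq_nonneg μ]
    have := pow_le_pow_left₀ (norm_nonneg _) hb 2
    rwa [Real.sq_sqrt (by positivity)] at this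
  rcases eq_or_ne ‖F‖ 0 with hF | hF
  · have : F = 0 := norm_eq_zero.1 hF
    simp [b, R, this]
  have hFpos : 0 < ‖F‖ := lt_of_le_of_ne (norm_nonneg F) (Ne.symm hF)
  set μ := b / ‖F‖ ^ 2
  set Q := a ^ 2 + b ^ 2 / ‖F‖ ^ 2 with hQ
  have hxG : x (a • f' + μ • R) = Q := by
    simp only [map_add, map_smul, smul_eq_mul, μ, a, b, hQ]; ring
  have hnG : ‖a • f' + μ • R‖ ^ 2 ≤ Q := by
    refine (horth μ).trans (le_of_eq ?_)
    simp only [μ, hQ]; field_simp
  have hQle : Q ≤ L * ‖a • f' + μ • R‖ := by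
    rw [← hxG]; exact (le_abs_self _).trans (x.le_opNorm _)
  have hQ0 : 0 ≤ Q := by rw [hQ]; positivity
  have hQ2 : Q ≤ L ^ 2 := by
    have h1 : Q ^ 2 ≤ L ^ 2 * Q :=
      calc Q ^ 2 ≤ (L * ‖a • f' + μ • R‖) ^ 2 := pow_le_pow_left₀ hQ0 hQle 2
        _ = L ^ 2 * ‖a • f' + μ • R‖ ^ 2 := mul_pow _ _ _
        _ ≤ L ^ 2 * Q := by gcongr
    rcases hQ0.eq_or_lt with h | h
    · rw [← h]; positivity
    · nlinarith
  have hb2 : b ^ 2 / ‖F‖ ^ 2 ≤ η ^ 2 := by
    have he : ε * (4 * (L + 1)) ≤ η ^ 2 := (le_div_iff₀ (by positivity)).1 (min_le_right _ _)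
    rcases le_or_gt (2 * ε) L with h | h
    · nlinarith [sq_nonneg (a - (L - 2 * ε))]
    · nlinarith [sq_nonneg a]
  rw [div_le_iff₀ (by positivity), ← mul_pow] at hb2
  exact abs_le_of_sq_le_sq hb2 (by positivity)

/-- Cut defined by the ancestor closure of a finite set of nodes. -/
def finCut (D : Finset Node) : Cut where
  mem v := v.dep = 0 ∨ ∃ w ∈ D, ∃ j ≤ w.dep, w.anc j = v
  closed v k h := by
    rcases h with h | ⟨w, hw, j, hj, rfl⟩
    · exact Or.inl (by simp [h])
    · rcases le_or_gt (j + k) w.dep with h' | h'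
      · exact Or.inr ⟨w, hw, j + k, h', by simp⟩
      · exact Or.inl (by simp; omega)
  base v h := Or.inl h

/-- The nodes of `finCut D` of positive depth, as a finite set. -/
theorem finCut_finite (D : Finset Node) :
    ∃ B : Finset Node, ∀ v, (finCut D).mem v → 0 < v.dep → v ∈ B := by
  classical
  refine ⟨D.biUnion fun w => (range (w.dep + 1)).image w.anc, fun v h hv => ?_⟩
  rcases h with h | ⟨w, hw, j, hj, rfl⟩
  · omega
  · exact mem_biUnion.2 ⟨w, hw, mem_image.2 ⟨j, mem_range.2 (by omega), rfl⟩⟩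

open scoped Classical in
theorem inc_proj_one (A : Cut) (F : JT) (v : Node) :
    inc (A.proj F) (v, 1) = if A.mem v then inc F (v, 1) else 0 := by
  split_ifs with h
  · simp only [inc, Cut.proj_apply]
    rw [A.exit_eq_self h, A.exit_eq_self (A.closed v 1 h)]
  · simp only [inc, Cut.proj_apply]
    have : 1 ≤ A.lev v := by
      by_contra hc
      have h0 := A.mem_anc_of_lev_le v (k := 0) (by omega)
      rw [anc_zero] at h0
      exact h h0
    rw [A.exit_anc_of_le v this, sub_self]

/-- Every functional is close to its restriction to a finite set of nodes. -/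
theorem exists_finCut_near (x : StrongDual ℝ JT) {η : ℝ} (hη : 0 < η) :
    ∃ D : Finset Node, ∀ F : JT, |x F - x ((finCut D).proj F)| ≤ η * ‖F‖ := by
  classical
  obtain ⟨N, hN⟩ := exists_block_functional x (half_pos hη)
  set c : Node → ℝ := fun v => x (unit v)
  set c' : Node → ℝ := fun v => if v.n < N ∧ 0 < v.dep then c v ^ 2 else 0
  have hc'sum : ∀ D : Finset Node, ∑ v ∈ D, c' v ≤ ‖x‖ ^ 2 * N := by
    intro D
    set E := D.filter fun v => v.n < N ∧ 0 < v.dep
    have hE : ∑ v ∈ D, c' v = ∑ v ∈ E, c v ^ 2 := (Finset.sum_filter _ _).symm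
    rw [hE]
    set S := ∑ v ∈ E, c v ^ 2
    set G : JT := ∑ v ∈ E, c v • unit v
    have hS0 : 0 ≤ S := Finset.sum_nonneg fun v _ => sq_nonneg _
    have hG : ‖G‖ ^ 2 ≤ N * S := by
      refine norm_sq_le_of_bounded G N S hS0 (fun u hu => ?_) (fun D' => ?_)
      · rw [← inc_dep G u, inc_one_unit_sum]
        refine Finset.sum_eq_zero fun v hv => ?_
        have : v ∉ cover (u, u.dep) := fun h => by
          have h1 : v.n = u.n := n_eq_of_mem_cover h
          exact absurd (mem_filter.1 hv).2.1 (by omega)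
        simp [inc_unit, this]
      · calc ∑ u ∈ D', inc G (u, 1) ^ 2 ≤ ∑ u ∈ D', (if u ∈ E then c u ^ 2 else 0) := by
              refine Finset.sum_le_sum fun u _ => ?_
              rcases Nat.eq_zero_or_pos u.dep with h0 | h0
              · rw [inc_eq_zero_of_dep _ u 1 h0]
                split_ifs <;> norm_num <;> exact sq_nonneg _
              · rw [inc_comb_one _ _ _ h0]
                split_ifs <;> simp
          _ ≤ S := by
              rw [← Finset.sum_filter]
              exact Finset.sum_le_sum_of_subset_of_nonneg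
                (fun u hu => (mem_filter.1 hu).2) fun u _ _ => sq_nonneg _
    have hxG : x G = S := by simp [G, S, c, sq]
    have h1 : S ^ 2 ≤ ‖x‖ ^ 2 * N * S :=
      calc S ^ 2 ≤ (‖x‖ * ‖G‖) ^ 2 :=
            pow_le_pow_left₀ hS0 (hxG ▸ (le_abs_self _).trans (x.le_opNorm G)) 2
        _ ≤ ‖x‖ ^ 2 * N * S := by rw [mul_pow, mul_assoc]; gcongr
    rcases hS0.eq_or_lt with h | h
    · rw [← h]; positivity
    · nlinarith
  have hc'0 : 0 ≤ c' := fun v => by
    show 0 ≤ c' v
    simp only [c']; split_ifs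
    · exact sq_nonneg _
    · exact le_rfl
  have hsummable := summable_of_sum_le hc'0 hc'sum
  obtain ⟨D₀, hD₀⟩ := hsummable.vanishing (Iio_mem_nhds (show (0:ℝ) < (η / 2) ^ 2 by positivity))
  set D := D₀.filter fun v => v.n < N
  refine ⟨D, fun F => ?_⟩
  set A := finCut D
  have hAn : ∀ v, A.mem v → 0 < v.dep → v.n < N := by
    rintro v (h | ⟨w, hw, j, hj, rfl⟩) hv
    · omega
    · exact (mem_filter.1 hw).2
  have hAD : ∀ v ∈ D, A.mem v := fun v hv => Or.inr ⟨v, hv, 0, Nat.zero_le _, anc_zero v⟩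
  set P := (blockCut N).proj F
  set u := P - A.proj F
  set q : Node → ℝ := fun v => if v.n < N ∧ ¬A.mem v ∧ 0 < v.dep then inc F (v, 1) ^ 2 else 0
  have hq0 : 0 ≤ q := fun v => by
    show 0 ≤ q v
    simp only [q]; split_ifs
    · exact sq_nonneg _
    · exact le_rfl
  have hqsum : ∀ D : Finset Node, ∑ v ∈ D, q v ≤ ‖F‖ ^ 2 := fun D => by
    rw [← Finset.sum_filter]; exact sum_one_sq_le F _
  have hq := summable_of_sum_le hq0 hqsum
  have hu : ∀ δ > 0, |x u| ≤ η / 2 * ‖F‖ + ‖x‖ * Real.sqrt (N * δ) := by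
    intro δ hδ
    obtain ⟨D₁, hD₁⟩ := hq.vanishing (Iio_mem_nhds hδ)
    set D₂ := D₁.filter fun v => v.n < N ∧ ¬A.mem v ∧ 0 < v.dep
    set G : JT := ∑ v ∈ D₂, inc F (v, 1) • unit v
    have hdiff : ‖u - G‖ ^ 2 ≤ N * δ := by
      refine norm_sq_le_of_bounded _ N δ hδ.le (fun w hw => ?_) (fun D' => ?_)
      · have h1 : P w = 0 := blockCut_proj_of_le N F hw
        have h2 : A.proj F w = 0 := by
          rw [Cut.proj_apply]
          refine jt_base F _ ?_
          by_contra hne
          have := hAn _ (A.exit_mem w) (Nat.pos_of_ne_zero hne)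
          simp [Cut.exit] at this
          omega
        have h3 : G w = 0 := by
          rw [← inc_dep G w, inc_one_unit_sum]
          refine Finset.sum_eq_zero fun v hv => ?_
          have : v ∉ cover (w, w.dep) := fun h => by
            have h' : v.n = w.n := n_eq_of_mem_cover h
            exact absurd (mem_filter.1 hv).2.1 (by omega)
          simp [inc_unit, this]
        simp [u, h1, h2, h3]
      · calc ∑ v ∈ D', inc (u - G : JT) (v, 1) ^ 2
            ≤ ∑ v ∈ D', (if v ∉ D₁ then q v else 0) := by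
              refine Finset.sum_le_sum fun v _ => ?_
              rcases Nat.eq_zero_or_pos v.dep with h0 | h0
              · rw [inc_eq_zero_of_dep _ v 1 h0]
                split_ifs <;> norm_num <;> exact hq0 v
              · have : inc (u - G : JT) (v, 1) =
                    inc P (v, 1) - inc (A.proj F) (v, 1) - inc G (v, 1) := by
                  simp [inc, u]; ring
                rw [this, inc_blockCut_proj, inc_proj_one, inc_comb_one _ _ _ h0]
                by_cases hn : v.n < N <;> by_cases hm : A.mem v <;> by_cases h1 : v ∈ D₁ <;>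
                  simp [hn, hm, h1, h0, q, D₂] <;>
                  exact absurd (hAn v hm h0) hn
          _ ≤ δ := by
              rw [← Finset.sum_filter]
              exact (hD₁ _ (Finset.disjoint_left.2 fun v hv => (mem_filter.1 hv).2)).le
    have hG : |x G| ≤ η / 2 * ‖F‖ := by
      have e : x G = ∑ v ∈ D₂, inc F (v, 1) * c v := by simp [G, c]
      rw [e]
      refine abs_le_of_sq_le_sq ?_ (by positivity)
      refine (Finset.sum_mul_sq_le_sq_mul_sq _ _ _).trans ?_
      rw [mul_pow, mul_comm ((η / 2) ^ 2)]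
      refine mul_le_mul (sum_one_sq_le F _) ?_ (Finset.sum_nonneg fun v _ => sq_nonneg _)
        (sq_nonneg _)
      calc ∑ v ∈ D₂, c v ^ 2 = ∑ v ∈ D₂, c' v := Finset.sum_congr rfl fun v hv => by
            simp [c', (mem_filter.1 hv).2.1, (mem_filter.1 hv).2.2.2]
        _ ≤ (η / 2) ^ 2 := le_of_lt <| hD₀ _ <| Finset.disjoint_left.2 fun v hv hv' =>
            (mem_filter.1 hv).2.2.1 (hAD v (mem_filter.2 ⟨hv', (mem_filter.1 hv).2.1⟩))
    have hd2 : ‖u - G‖ ≤ Real.sqrt (N * δ) := by
      rw [← Real.sqrt_sq (norm_nonneg (u - G))]; exact Real.sqrt_le_sqrt hdiff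
    calc |x u| = |x G + x (u - G)| := by rw [← map_add, add_sub_cancel]
      _ ≤ |x G| + |x (u - G)| := abs_add_le _ _
      _ ≤ η / 2 * ‖F‖ + ‖x‖ * Real.sqrt (N * δ) := by
          gcongr
          exact (x.le_opNorm _).trans (by gcongr)
  have hu' : |x u| ≤ η / 2 * ‖F‖ := by
    refine le_of_forall_pos_le_add fun e he => ?_
    refine (hu (e ^ 2 / ((‖x‖ + 1) ^ 2 * (N + 1))) (by positivity)).trans ?_
    gcongr
    have h1 : Real.sqrt (N * (e ^ 2 / ((‖x‖ + 1) ^ 2 * (N + 1)))) ≤ e / (‖x‖ + 1) := by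
      rw [Real.sqrt_le_left (by positivity), div_pow]
      rw [mul_div_assoc', div_le_div_iff₀ (by positivity) (by positivity)]
      nlinarith [mul_nonneg (sq_nonneg e) (sq_nonneg (‖x‖ + 1))]
    calc ‖x‖ * Real.sqrt (N * (e ^ 2 / ((‖x‖ + 1) ^ 2 * (N + 1))))
        ≤ ‖x‖ * (e / (‖x‖ + 1)) := by gcongr
      _ ≤ e := by rw [mul_div_assoc', div_le_iff₀ (by positivity)]; nlinarith [norm_nonneg x]
  calc |x F - x (A.proj F)| = |x (F - P) + x u| := by
        simp only [u, map_sub]; ring_nf
    _ ≤ |x (F - P)| + |x u| := abs_add_le _ _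
    _ ≤ η / 2 * ‖F‖ + η / 2 * ‖F‖ := add_le_add (hN F) hu'
    _ = η * ‖F‖ := by ring

end

end Vale.Agent.P069
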