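import Vale.Agent.P069.Reflexive

/-!
The dual of the tree space is asymptotically midpoint uniformly convex.
-/

namespace Vale.Agent.P069

open Finset Node

noncomputable section

variable (A : Cut)

/-- The part of a function outside the cut. -/
def outer (g : JT) (v : Node) : ℝ := g v - g (A.exit v)

theorem outer_eq_inc (g : JT) (v : Node) : outer A g v = inc g (v, A.lev v) := rfl

theorem outer_of_mem (g : JT) {v : Node} (h : A.mem v) : outer A g v = 0 := by
  simp [outer, A.exit_eq_self h]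

theorem outer_sq_le (g : JT) (v : Node) : outer A g v ^ 2 ≤ ‖g‖ ^ 2 := by
  rw [outer_eq_inc]
  simpa using sum_inc_sq_le g (fun _ : Unit => (v, A.lev v))
    fun i j h => absurd (Subsingleton.elim i j) h

/-- Squares of the outer values below an exit node. -/
def belowSet (g : JT) (t : Node) : Set ℝ :=
  insert 0 ((fun v => outer A g v ^ 2) '' {v | A.exit v = t})

/-- Their supremum. -/
def below (g : JT) (t : Node) : ℝ := sSup (belowSet A g t)

theorem below_bddAbove (g : JT) (t : Node) : BddAbove (belowSet A g t) := by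
  refine ⟨‖g‖ ^ 2, ?_⟩
  rintro z (rfl | ⟨v, -, rfl⟩)
  · positivity
  · exact outer_sq_le A g v

theorem outer_sq_le_below (g : JT) (v : Node) : outer A g v ^ 2 ≤ below A g (A.exit v) :=
  le_csSup (below_bddAbove A g _) (Or.inr ⟨v, rfl, rfl⟩)

theorem below_nonneg (g : JT) (t : Node) : 0 ≤ below A g t :=
  le_csSup (below_bddAbove A g t) (Or.inl rfl)

theorem sum_below_le (g : JT) {ι : Type*} (s : Finset ι) (t : ι → Node)
    (hmem : ∀ i ∈ s, A.mem (t i)) (hinj : Set.InjOn t s) :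
    ∑ i ∈ s, below A g (t i) ≤ ‖g‖ ^ 2 := by
  classical
  refine le_of_forall_pos_le_add fun e he => ?_
  set δ := e / (#s + 1 : ℝ) with hδ
  have hδ0 : 0 < δ := by positivity
  have hex : ∀ i ∈ s, ∃ v, A.exit v = t i ∧ below A g (t i) - δ ≤ outer A g v ^ 2 := by
    intro i hi
    obtain ⟨z, hz, hlt⟩ := exists_lt_of_lt_csSup
      (s := belowSet A g (t i)) ⟨0, Or.inl rfl⟩ (show below A g (t i) - δ < _ by
        show below A g (t i) - δ < below A g (t i); linarith)
    rcases hz with rfl | ⟨v, hv, rfl⟩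
    · exact ⟨t i, A.exit_eq_self (hmem i hi), by
        rw [outer_of_mem A g (hmem i hi)]; linarith⟩
    · exact ⟨v, hv, hlt.le⟩
  choose v hv hle using hex
  have hdisj : ∀ i ∈ (univ : Finset s), ∀ j ∈ (univ : Finset s), i ≠ j →
      Disjoint (cover (v i i.2, A.lev (v i i.2))) (cover (v j j.2, A.lev (v j j.2))) := by
    intro i _ j _ hij
    rw [Set.disjoint_left]
    rintro u ⟨a, ha, had, rfl⟩ ⟨b, hb, hbd, hab⟩
    have h1 : A.exit ((v i i.2).anc a) = t i := by rw [A.exit_anc_of_le _ ha.le, hv]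
    have h2 : A.exit ((v j j.2).anc b) = t j := by rw [A.exit_anc_of_le _ hb.le, hv]
    rw [hab] at h2
    exact hij (Subtype.ext (hinj i.2 j.2 (h1.symm.trans h2)))
  have hsum := sum_finset_inc_sq_le (univ : Finset s) g
    (fun i : s => (v i i.2, A.lev (v i i.2))) hdisj
  calc ∑ i ∈ s, below A g (t i) = ∑ i : s, below A g (t i) := (Finset.sum_coe_sort s _).symm
    _ ≤ ∑ i : s, (inc g (v i i.2, A.lev (v i i.2)) ^ 2 + δ) :=
        Finset.sum_le_sum fun i _ => by
          have := hle i i.2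
          rw [outer_eq_inc] at this
          linarith
    _ ≤ ‖g‖ ^ 2 + e := by
        rw [Finset.sum_add_distrib, Finset.sum_const, card_univ, Fintype.card_coe, nsmul_eq_mul]
        refine add_le_add hsum ?_
        rw [hδ, mul_div_assoc', div_le_iff₀ (by positivity)]
        nlinarith

/-- The sign attached to an exit node. -/
def sgn (f g : JT) {s : ℝ} (hs : 0 ≤ s) (t : Node) : ℝ :=
  (exists_sign (fun i => inc f (t, i)) (inc_zero_len _ _)
    (mul_nonneg hs (Real.sqrt_nonneg (below A g t)))).choose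

theorem sgn_spec (f g : JT) {s : ℝ} (hs : 0 ≤ s) (t : Node) :
    (sgn A f g hs t = 1 ∨ sgn A f g hs t = -1) ∧
      ∀ i : ℕ, ∀ b : ℝ, 0 ≤ b → b ≤ s * Real.sqrt (below A g t) →
        ∃ j, j ≤ i ∧ (inc f (t, i) + sgn A f g hs t * b) ^ 2 ≤
          inc f (t, j) ^ 2 + (inc f (t, i) - inc f (t, j)) ^ 2
            + 3 * (s * Real.sqrt (below A g t)) ^ 2 :=
  (exists_sign (fun i => inc f (t, i)) (inc_zero_len _ _)
    (mul_nonneg hs (Real.sqrt_nonneg (below A g t)))).choose_spec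

open scoped Classical in
/-- One signed part of the outer function, in one class of exit nodes. -/
def part (σ : Node → ℝ) (g : JT) (e₁ e₂ : ℝ) (v : Node) : ℝ :=
  if σ (A.exit v) = e₁ then max (e₂ * outer A g v) 0 else 0

theorem part_of_mem (σ : Node → ℝ) (g : JT) (e₁ e₂ : ℝ) {v : Node} (h : A.mem v) :
    part A σ g e₁ e₂ v = 0 := by
  simp [part, outer_of_mem A g h]

theorem part_nonneg (σ : Node → ℝ) (g : JT) (e₁ e₂ : ℝ) (v : Node) :
    0 ≤ part A σ g e₁ e₂ v := by
  unfold part; split_ifs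
  · exact le_max_right _ _
  · exact le_rfl

theorem part_le (σ : Node → ℝ) (g : JT) (e₁ : ℝ) {e₂ : ℝ} (he : |e₂| = 1) (v : Node) :
    part A σ g e₁ e₂ v ≤ |outer A g v| := by
  unfold part; split_ifs
  · refine max_le ?_ (abs_nonneg _)
    calc e₂ * outer A g v ≤ |e₂ * outer A g v| := le_abs_self _
      _ = |outer A g v| := by rw [abs_mul, he, one_mul]
  · exact abs_nonneg _

theorem part_dominated (σ : Node → ℝ) (g : JT) (e₁ : ℝ) {e₂ : ℝ} (he : |e₂| = 1) (p : Seg) :
    ∃ q : Seg, cover q ⊆ cover p ∧ |inc (part A σ g e₁ e₂) p| ≤ |inc g q| := by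
  obtain ⟨v, k⟩ := p
  rcases le_or_gt k (A.lev v) with h | h
  · refine ⟨(v, k), subset_rfl, ?_⟩
    have hex := A.exit_anc_of_le v h
    simp only [inc, part, hex]
    split_ifs
    · refine (abs_max_sub_max_le_abs _ _ _).trans (le_of_eq ?_)
      rw [← mul_sub, abs_mul, he, one_mul]
      simp [outer, hex]
    · simp
  · refine ⟨(v, A.lev v), cover_mono v h.le, ?_⟩
    have h0 : part A σ g e₁ e₂ (v.anc k) = 0 :=
      part_of_mem A σ g e₁ e₂ (A.mem_anc_of_lev_le v h.le)
    rw [← outer_eq_inc A g v]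
    simp only [inc, h0, sub_zero]
    rw [abs_of_nonneg (part_nonneg A σ g e₁ e₂ v)]
    exact part_le A σ g e₁ he v

/-- The parts as elements of the space. -/
def partJT (σ : Node → ℝ) (g : JT) (e₁ : ℝ) {e₂ : ℝ} (he : |e₂| = 1) : JT :=
  mkJT (part A σ g e₁ e₂) ‖g‖ (fun v hv => part_of_mem A σ g e₁ e₂ (A.base v hv))
    (sum_sq_le_of_dominated g _ (part_dominated A σ g e₁ he))

@[simp] theorem partJT_apply (σ : Node → ℝ) (g : JT) (e₁ : ℝ) {e₂ : ℝ} (he : |e₂| = 1)
    (v : Node) : partJT A σ g e₁ he v = part A σ g e₁ e₂ v := rfl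

theorem norm_partJT_le (σ : Node → ℝ) (g : JT) (e₁ : ℝ) {e₂ : ℝ} (he : |e₂| = 1) :
    ‖partJT A σ g e₁ he‖ ≤ ‖g‖ :=
  jt_norm_le (norm_nonneg g) (sum_sq_le_of_dominated g _ (part_dominated A σ g e₁ he))

theorem proj_partJT (σ : Node → ℝ) (g : JT) (e₁ : ℝ) {e₂ : ℝ} (he : |e₂| = 1) :
    A.proj (partJT A σ g e₁ he) = 0 :=
  jt_ext fun v => by simp [part_of_mem A σ g e₁ e₂ (A.exit_mem v)]

theorem disjoint_cover_split (v : Node) (i l : ℕ) :
    Disjoint (cover (v, i)) (cover (v.anc i, l)) := by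
  rw [Set.disjoint_left]
  rintro u ⟨a, ha, had, rfl⟩ ⟨b, -, hbd, hab⟩
  simp only [dep_anc, anc_anc] at hbd hab
  have hd : a < v.dep := had
  have h2 := anc_inj (u := v) (show i + b ≤ v.dep by omega) hd.le hab
  have h3 : a < i := ha
  omega

/-- Adding a signed part costs only second order. -/
theorem norm_perturb_le (f g : JT) (hf : ‖f‖ ≤ 1) (hg : ‖g‖ ≤ 1) {s : ℝ} (hs : 0 ≤ s)
    (e₁ : ℝ) (he₁ : |e₁| = 1) {e₂ : ℝ} (he₂ : |e₂| = 1) :
    ‖A.proj f + (e₁ * s) • partJT A (sgn A f g hs) g e₁ he₂‖ ≤ Real.sqrt (1 + 4 * s ^ 2) := by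
  classical
  set σ := sgn A f g hs
  set H := partJT A σ g e₁ he₂
  set F := A.proj f + (e₁ * s) • H
  refine jt_norm_le (Real.sqrt_nonneg _) fun m S hS => ?_
  rw [Real.sq_sqrt (by positivity)]
  have key : ∀ p : Seg, ∃ j, j ≤ p.2 - A.lev p.1 ∧ inc F p ^ 2 ≤
      inc f (A.exit p.1, j) ^ 2 + inc f ((A.exit p.1).anc j, p.2 - A.lev p.1 - j) ^ 2
      + ((if A.lev p.1 < p.2 ∧ A.lev p.1 < p.1.dep then 3 * s ^ 2 * below A g (A.exit p.1) else 0)
      + s ^ 2 * inc H p ^ 2) := by
    rintro ⟨v, k⟩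
    have hF : inc F (v, k) = inc f (A.exit v, k - A.lev v) + e₁ * s * inc H (v, k) := by
      have h1 : inc F (v, k) = inc (fun u => f (A.exit u)) (v, k) + e₁ * s * inc H (v, k) := by
        simp [inc, F]; ring
      rw [h1, A.inc_comp_exit]
    by_cases hc : A.lev v < k ∧ A.lev v < v.dep
    · have hH : inc H (v, k) = part A σ g e₁ e₂ v := by
        simp [inc, H, part_of_mem A σ g e₁ e₂ (A.mem_anc_of_lev_le v hc.1.le)]
      set t := A.exit v
      set b := s * part A σ g e₁ e₂ v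
      obtain ⟨j, hj, hle⟩ : ∃ j, j ≤ k - A.lev v ∧ inc F (v, k) ^ 2 ≤ inc f (t, j) ^ 2 +
          (inc f (t, k - A.lev v) - inc f (t, j)) ^ 2 + 3 * s ^ 2 * below A g t := by
        by_cases hσ : σ t = e₁
        · have hb : b ≤ s * Real.sqrt (below A g t) := by
            refine mul_le_mul_of_nonneg_left ?_ hs
            refine (part_le A σ g e₁ he₂ v).trans ?_
            rw [← Real.sqrt_sq_eq_abs]
            exact Real.sqrt_le_sqrt (outer_sq_le_below A g v)
          obtain ⟨j, hj, hle⟩ := (sgn_spec A f g hs t).2 (k - A.lev v) b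
            (mul_nonneg hs (part_nonneg A σ g e₁ e₂ v)) hb
          refine ⟨j, hj, ?_⟩
          rw [hF, hH, ← hσ]
          rw [mul_pow, Real.sq_sqrt (below_nonneg A g t)] at hle
          convert hle using 1
          · simp only [b, σ, ← hσ]; ring
          · ring
        · refine ⟨0, Nat.zero_le _, ?_⟩
          rw [hF, hH, show part A σ g e₁ e₂ v = 0 from if_neg hσ, inc_zero_len]
          nlinarith [below_nonneg A g t, sq_nonneg s]
      refine ⟨j, hj, hle.trans ?_⟩
      have hsplit : inc f (t.anc j, k - A.lev v - j) = inc f (t, k - A.lev v) - inc f (t, j) := by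
        have := inc_split (f : Node → ℝ) t j (k - A.lev v - j)
        rw [Nat.add_sub_cancel' hj] at this
        linarith
      rw [hsplit]
      dsimp only
      rw [if_pos hc]
      nlinarith [sq_nonneg (s * inc H (v, k))]
    · refine ⟨0, Nat.zero_le _, ?_⟩
      have hz : inc f (A.exit v, k - A.lev v) = 0 := by
        rcases not_and_or.1 hc with h | h
        · rw [Nat.sub_eq_zero_of_le (not_lt.1 h), inc_zero_len]
        · refine inc_eq_zero_of_dep _ _ _ ?_
          simp [Cut.exit]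
          omega
      dsimp only
      rw [hF, hz, if_neg hc, inc_zero_len]
      have he : e₁ ^ 2 = 1 := by rw [← sq_abs, he₁]; norm_num
      calc (0 + e₁ * s * inc H (v, k)) ^ 2 = e₁ ^ 2 * (s ^ 2 * inc H (v, k) ^ 2) := by ring
        _ ≤ _ := by rw [he, one_mul]; nlinarith [sq_nonneg (inc f ((A.exit v).anc 0, k - A.lev v - 0))]
  choose J hJ hkey using key
  let T : Fin m ⊕ Fin m → Seg := Sum.elim
    (fun i => (A.exit (S i).1, J (S i)))
    (fun i => ((A.exit (S i).1).anc (J (S i)), (S i).2 - A.lev (S i).1 - J (S i)))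
  have hsub1 : ∀ i, cover (T (Sum.inl i)) ⊆ cover (S i) := fun i =>
    (cover_mono _ (hJ (S i))).trans (A.cover_exit_subset _ _)
  have hsub2 : ∀ i, cover (T (Sum.inr i)) ⊆ cover (S i) := fun i =>
    (cover_anc_subset _ _ _ _ (Or.inl (by have := hJ (S i); omega))).trans
      (A.cover_exit_subset _ _)
  have hT : DisjFam T := by
    rintro (i | i) (j | j) hij
    · exact (hS fun h => hij (congrArg Sum.inl h)).mono (hsub1 i) (hsub1 j)
    · rcases eq_or_ne i j with rfl | h
      · exact disjoint_cover_split _ _ _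
      · exact (hS h).mono (hsub1 i) (hsub2 j)
    · rcases eq_or_ne i j with rfl | h
      · exact (disjoint_cover_split _ _ _).symm
      · exact (hS h).mono (hsub2 i) (hsub1 j)
    · exact (hS fun h => hij (congrArg Sum.inr h)).mono (hsub2 i) (hsub2 j)
  have h1 : ∑ i, (inc f (A.exit (S i).1, J (S i)) ^ 2 +
      inc f ((A.exit (S i).1).anc (J (S i)), (S i).2 - A.lev (S i).1 - J (S i)) ^ 2) ≤ 1 := by
    have := (sum_inc_sq_le f T hT).trans (pow_le_one₀ (norm_nonneg f) hf)
    rw [Finset.sum_add_distrib]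
    simpa [T, Fintype.sum_sum_type] using this
  set C := univ.filter fun i => A.lev (S i).1 < (S i).2 ∧ A.lev (S i).1 < (S i).1.dep with hC
  have h2 : ∑ i ∈ C, below A g (A.exit (S i).1) ≤ 1 := by
    refine (sum_below_le A g C _ (fun i _ => A.exit_mem _) ?_).trans
      (pow_le_one₀ (norm_nonneg g) hg)
    intro i hi j hj hij
    by_contra hne
    have hi' := (mem_filter.1 hi).2
    have hj' := (mem_filter.1 hj).2
    have hu1 : A.exit (S i).1 ∈ cover (S i) := ⟨_, hi'.1, hi'.2, rfl⟩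
    have hu2 : A.exit (S j).1 ∈ cover (S j) := ⟨_, hj'.1, hj'.2, rfl⟩
    simp only at hij
    rw [hij] at hu1
    exact Set.disjoint_left.1 (hS hne) hu1 hu2
  have h3 : ∑ i, inc H (S i) ^ 2 ≤ 1 :=
    (sum_inc_sq_le H S hS).trans
      (pow_le_one₀ (norm_nonneg H) ((norm_partJT_le A σ g e₁ he₂).trans hg))
  calc ∑ i, inc F (S i) ^ 2 ≤ _ := Finset.sum_le_sum fun i _ => hkey (S i)
    _ ≤ 1 + (3 * s ^ 2 * 1 + s ^ 2 * 1) := by
      rw [Finset.sum_add_distrib]
      refine add_le_add h1 ?_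
      rw [Finset.sum_add_distrib, ← Finset.sum_filter, ← hC, ← Finset.mul_sum, ← Finset.mul_sum]
      gcongr
    _ = 1 + 4 * s ^ 2 := by ring

/-- The four parts recover the outer function, so one of them sees the functional. -/
theorem exists_part_large (σ : Node → ℝ) (hσ : ∀ t, σ t = 1 ∨ σ t = -1) (g : JT)
    (y : StrongDual ℝ JT) (hy : y (A.proj g) = 0) :
    ∃ e₁ e₂ : ℝ, |e₁| = 1 ∧ ∃ he : |e₂| = 1, y g / 4 ≤ |y (partJT A σ g e₁ he)| := by
  have h1 : |(1 : ℝ)| = 1 := abs_one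
  have h2 : |(-1 : ℝ)| = 1 := by simp
  have hmax : ∀ a : ℝ, max a 0 - max (-a) 0 = a := fun a => by
    rcases le_or_gt 0 a with h | h
    · rw [max_eq_left h, max_eq_right (by linarith)]; ring
    · rw [max_eq_right h.le, max_eq_left (by linarith)]; ring
  have hsum : g - A.proj g = (partJT A σ g 1 h1 - partJT A σ g 1 h2) +
      (partJT A σ g (-1) h1 - partJT A σ g (-1) h2) := by
    refine jt_ext fun v => ?_
    rcases hσ (A.exit v) with h | h
    · simp [part, outer, h, show ¬((1:ℝ) = -1) by norm_num]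
      rw [← neg_sub (g v), hmax]
    · simp [part, outer, h, show ¬((-1:ℝ) = 1) by norm_num]
      rw [← neg_sub (g v), hmax]
  have h3 := congrArg y hsum
  rw [map_sub, hy, sub_zero, map_add, map_sub, map_sub] at h3
  by_contra hcon
  push Not at hcon
  have a1 := hcon 1 1 h1 h1
  have a2 := hcon 1 (-1) h1 h2
  have a3 := hcon (-1) 1 h2 h1
  have a4 := hcon (-1) (-1) h2 h2
  rw [abs_lt] at a1 a2 a3 a4
  linarith [a1.1, a1.2, a2.1, a2.2, a3.1, a3.2, a4.1, a4.2]

/-- Quantitative asymptotic midpoint uniform convexity of the dual. -/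
theorem amuc_X (x : X) (hx : ‖x‖ = 1) (t : ℝ) (ht : 0 < t) :
    ∃ F : Submodule ℝ X, IsClosed (F : Set X) ∧ FiniteDimensional ℝ (X ⧸ F) ∧
      ∀ y ∈ F, ‖y‖ = 1 → 1 + (min t 1) ^ 2 / 4096 ≤ max ‖x + t • y‖ ‖x - t • y‖ := by
  set u := min t 1 with hu_def
  have hu : 0 < u := lt_min ht one_pos
  have hu1 : u ≤ 1 := min_le_right _ _
  have hut : u ≤ t := min_le_left _ _
  obtain ⟨D, hD⟩ := norm_sub_comp_proj_le x (show (0:ℝ) < u ^ 2 / 8192 by positivity)
  obtain ⟨B, hB⟩ := finCut_finite D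
  let Φ : X →L[ℝ] (B → ℝ) :=
    ContinuousLinearMap.pi fun v : B => NormedSpace.inclusionInDoubleDual ℝ JT (unit v)
  refine ⟨Φ.ker, Φ.isClosed_ker, ?_, fun y hy hy1 => ?_⟩
  · exact Φ.toLinearMap.quotKerEquivRange.symm.finiteDimensional
  set A := finCut D
  have hyker : ∀ v ∈ B, y (unit v) = 0 := fun v hv => by
    have := congrFun (LinearMap.mem_ker.1 hy) ⟨v, hv⟩
    simpa [Φ] using this
  have hyP : ∀ G : JT, y (A.proj G) = 0 := by
    intro G
    classical
    have hP : A.proj G = ∑ v ∈ B.filter (fun v => A.mem v), inc G (v, 1) • unit v := by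
      refine jt_ext fun w => ?_
      rw [← inc_dep (A.proj G) w, ← inc_dep (∑ v ∈ _, inc G (v, 1) • unit v) w,
        inc_telescope, inc_telescope]
      refine Finset.sum_congr rfl fun j hj => ?_
      have hd : 0 < (w.anc j).dep := by simp at hj ⊢; omega
      rw [inc_proj_one, inc_comb_one _ _ _ hd]
      by_cases h : A.mem (w.anc j)
      · simp [h, hB _ h hd]
      · simp [h]
    rw [hP, map_sum]
    exact Finset.sum_eq_zero fun v hv => by simp [hyker v (mem_filter.1 hv).1]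
  set η := u ^ 2 / 8192 with hη_def
  have hη : 0 < η := by positivity
  obtain ⟨f₀, hf₀, hxf⟩ := exists_near_norm x hη
  obtain ⟨g, hg, hyg⟩ := exists_near_norm y (show (0:ℝ) < 1 / 2 by norm_num)
  rw [hy1] at hyg
  set s := u / 64 with hs_def
  have hs : 0 ≤ s := by positivity
  obtain ⟨e₁, e₂, he₁, he₂, hlarge⟩ := exists_part_large A (sgn A f₀ g hs)
    (fun w => (sgn_spec A f₀ g hs w).1) g y (hyP g)
  set H := partJT A (sgn A f₀ g hs) g e₁ he₂
  set F := A.proj f₀ + (e₁ * s) • H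
  have hF : ‖F‖ ≤ Real.sqrt (1 + 4 * s ^ 2) := norm_perturb_le A f₀ g hf₀ hg hs e₁ he₁ he₂
  have hsq : Real.sqrt (1 + 4 * s ^ 2) ≤ 1 + u ^ 2 / 2048 := by
    rw [Real.sqrt_le_left (by positivity), hs_def]; nlinarith [sq_nonneg (u ^ 2)]
  have hF2 : ‖F‖ ≤ 2 := by nlinarith
  set x' := x.comp A.proj
  have hx1 : |x F - x' F| ≤ η * 2 :=
    ((x - x').le_opNorm F).trans (mul_le_mul hD hF2 (norm_nonneg _) hη.le)
  have hx2 : x' F = x' f₀ := by
    simp [x', F, H, proj_partJT]
  have hx3 : |x f₀ - x' f₀| ≤ η * 1 :=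
    ((x - x').le_opNorm f₀).trans (mul_le_mul hD hf₀ (norm_nonneg _) hη.le)
  rw [abs_le] at hx1 hx3
  have hxF : 1 - 4 * η ≤ x F := by rw [hx] at hxf; linarith
  have hyF : y F = e₁ * s * y H := by simp [F, hyP]
  have hyabs : s * (1 / 8) ≤ |y F| := by
    rw [hyF, abs_mul, abs_mul, he₁, one_mul, abs_of_nonneg hs]
    gcongr; linarith
  have hM : ∀ w : X, w F ≤ ‖w‖ * (1 + u ^ 2 / 2048) := fun w =>
    ((le_abs_self _).trans (w.le_opNorm F)).trans (by gcongr; exact hF.trans hsq)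
  have hp := hM (x + t • y)
  have hm := hM (x - t • y)
  simp only [add_apply, sub_apply, smul_apply, smul_eq_mul] at hp hm
  have hgain : u ^ 2 / 512 ≤ t * |y F| := by
    calc u ^ 2 / 512 = u * (s * (1 / 8)) := by rw [hs_def]; ring
      _ ≤ t * |y F| := mul_le_mul hut hyabs (by positivity) ht.le
  have hfin : 1 + 3 * u ^ 2 / 2048 ≤ max ‖x + t • y‖ ‖x - t • y‖ * (1 + u ^ 2 / 2048) := by
    rcases le_or_gt 0 (y F) with h | h
    · rw [abs_of_nonneg h] at hgain
      calc 1 + 3 * u ^ 2 / 2048 ≤ x F + t * y F := by rw [hη_def] at hxF; linarith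
        _ ≤ ‖x + t • y‖ * (1 + u ^ 2 / 2048) := hp
        _ ≤ _ := by gcongr; exact le_max_left _ _
    · rw [abs_of_neg h] at hgain
      calc 1 + 3 * u ^ 2 / 2048 ≤ x F - t * y F := by rw [hη_def] at hxF; linarith
        _ ≤ ‖x - t • y‖ * (1 + u ^ 2 / 2048) := hm
        _ ≤ _ := by gcongr; exact le_max_right _ _
  have hw : u ^ 2 ≤ 1 := pow_le_one₀ hu.le hu1
  nlinarith [sq_nonneg u, mul_nonneg (sq_nonneg u) (sq_nonneg u)]

end

end Vale.Agent.P069
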