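import Vale.Agent.P069.Midpoint
import Vale.Agent.P069.Defs

/-!
The dual of the tree space has no equivalent asymptotically uniformly convex norm.
-/

namespace Vale.Agent.P069

open Finset Node Filter Topology

noncomputable section

theorem one_le_norm_segF (v : Node) (hv : 0 < v.dep) : 1 ≤ ‖segF (v, 1)‖ := by
  classical
  have h1 : segF (v, 1) (unit v) = 1 := by
    rw [segF_apply, inc_unit, if_pos]
    exact ⟨0, Nat.zero_lt_one, hv, anc_zero v⟩
  calc (1:ℝ) = |segF (v, 1) (unit v)| := by rw [h1, abs_one]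
    _ ≤ ‖segF (v, 1)‖ * ‖unit v‖ := (segF (v, 1)).le_opNorm _
    _ ≤ ‖segF (v, 1)‖ * 1 := by gcongr; exact norm_unit_le v
    _ = ‖segF (v, 1)‖ := mul_one _

theorem ev_base (n : ℕ) : ev (base n) = 0 := by
  ext G; simp [jt_base G (base n) rfl]

theorem segF_child (v : Node) (h : v.dep < v.n) (i : ℕ) :
    ev v + segF (v.child h i, 1) = ev (v.child h i) := by
  simp [segF]

/-- The children of a node give a weakly null sequence. -/
theorem tendsto_dual_child (v : Node) (h : v.dep < v.n) (φ : StrongDual ℝ X) :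
    Tendsto (fun i => φ (segF (v.child h i, 1))) atTop (𝓝 0) := by
  have hb : ∀ D : Finset ℕ, ∑ i ∈ D, φ (segF (v.child h i, 1)) ^ 2 ≤ ‖φ‖ ^ 2 := by
    intro D
    rw [← Finset.sum_coe_sort]
    exact sum_dual_segF_sq_le φ (fun i : D => (v.child h i, 1))
      (disjFam_one (fun i : D => v.child h i)
        (fun a b hab => Subtype.ext (child_injective v h hab)))
  have hs := summable_of_sum_le (fun i => sq_nonneg (φ (segF (v.child h i, 1)))) hb
  have h2 := (Real.continuous_sqrt.tendsto 0).comp hs.tendsto_atTop_zero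
  rw [Real.sqrt_zero] at h2
  refine (tendsto_zero_iff_abs_tendsto_zero _).2 ?_
  simpa [Function.comp_def, Real.sqrt_sq_eq_abs] using h2

theorem exists_close_in_subspace (v : Node) (h : v.dep < v.n) (F : Submodule ℝ X)
    (hF : IsClosed (F : Set X)) (hfd : FiniteDimensional ℝ (X ⧸ F)) {ε : ℝ} (hε : 0 < ε) :
    ∃ i, ∃ y ∈ F, ‖segF (v.child h i, 1) - y‖ ≤ ε := by
  classical
  haveI := hF
  haveI := hfd
  let b := Module.finBasis ℝ (X ⧸ F)
  choose w hw using fun i => F.mkQ_surjective (b i)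
  let co : Fin (Module.finrank ℝ (X ⧸ F)) → StrongDual ℝ X := fun i =>
    (LinearMap.toContinuousLinearMap (b.coord i)).comp F.mkQL
  have hco : Tendsto (fun k => ∑ i, co i (segF (v.child h k, 1)) • w i) atTop (𝓝 0) := by
    have := tendsto_finset_sum (univ : Finset (Fin (Module.finrank ℝ (X ⧸ F)))) fun i _ =>
      (tendsto_dual_child v h (co i)).smul (tendsto_const_nhds (x := w i))
    simpa using this
  obtain ⟨K, hK⟩ := Metric.tendsto_atTop.1 hco ε hε
  refine ⟨K, segF (v.child h K, 1) - ∑ i, co i (segF (v.child h K, 1)) • w i, ?_, ?_⟩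
  · rw [← Submodule.Quotient.mk_eq_zero F, ← F.mkQ_apply, map_sub, map_sum]
    simp only [map_smul, hw]
    rw [sub_eq_zero]
    exact (b.sum_repr _).symm
  · rw [sub_sub_cancel]
    simpa using (hK K le_rfl).le

theorem seminorm_mono_step {E : Type*} [AddCommGroup E] [Module ℝ E] (N : Seminorm ℝ E)
    (x y : E) {t₀ t δ : ℝ} (h0 : 0 < t₀) (ht : t₀ ≤ t) (hx : N x = 1)
    (h : 1 + δ ≤ N (x + t₀ • y)) (hδ : 0 ≤ δ) : 1 + δ ≤ N (x + t • y) := by
  have htp : 0 < t := h0.trans_le ht
  set l := t₀ / t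
  have hl0 : 0 < l := div_pos h0 htp
  have hl1 : l ≤ 1 := (div_le_one htp).2 ht
  have he : x + t₀ • y = (1 - l) • x + l • (x + t • y) := by
    rw [smul_add, smul_smul, show l * t = t₀ from div_mul_cancel₀ t₀ htp.ne', ← add_assoc,
      ← add_smul]
    simp
  have h1 : N (x + t₀ • y) ≤ (1 - l) * 1 + l * N (x + t • y) := by
    rw [he]
    refine (map_add_le_add N _ _).trans ?_
    rw [map_smul_eq_mul, map_smul_eq_mul, hx, Real.norm_of_nonneg (by linarith),
      Real.norm_of_nonneg hl0.le]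
  by_contra hcon
  push Not at hcon
  nlinarith [mul_lt_mul_of_pos_left hcon hl0, mul_le_mul_of_nonneg_right hl1 hδ]

theorem not_auc (N : Seminorm ℝ X) (hN : IsEquivNorm N) :
    ¬ ∀ t : ℝ, 0 < t → ∃ δ > 0, ∀ x : X, N x = 1 → ∃ F : Submodule ℝ X, IsCofinite F ∧
      ∀ y ∈ F, N y = 1 → 1 + δ ≤ N (x + t • y) := by
  obtain ⟨c, C, hc, hC, hN⟩ := hN
  intro hauc
  set t₀ := c / (2 * C) with ht₀
  have ht₀pos : 0 < t₀ := by positivity
  obtain ⟨δ, hδ, hmod⟩ := hauc t₀ ht₀pos
  obtain ⟨m, hm⟩ := exists_lt_nsmul (show (0:ℝ) < c * (δ / 2) by positivity) C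
  rw [nsmul_eq_mul] at hm
  set n := m + 1 with hn
  have claim : ∀ k, k < n → ∃ v : Node, v.n = n ∧ v.dep = k + 1 ∧
      c * (1 + δ / 2) ^ k ≤ N (ev v) := by
    intro k
    induction k with
    | zero =>
      intro _
      have hb0 : (base n).dep < (base n).n := show 0 < n by omega
      refine ⟨(base n).child hb0 0, rfl, rfl, ?_⟩
      rw [pow_zero, mul_one]
      have h1 : 1 ≤ ‖ev ((base n).child hb0 0)‖ := by
        rw [← segF_child (base n) hb0 0, ev_base, zero_add]
        exact one_le_norm_segF _ (by simp)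
      exact (le_mul_of_one_le_right hc.le h1).trans (hN _).1
    | succ k ih =>
      intro hk
      obtain ⟨v, hvn, hvd, hv⟩ := ih (by omega)
      have hlt : v.dep < v.n := by omega
      have hz : 0 < N (ev v) := lt_of_lt_of_le (by positivity) hv
      have hzC : N (ev v) ≤ C :=
        (hN _).2.trans (mul_le_of_le_one_right hC.le (norm_ev_le v))
      set x := (N (ev v))⁻¹ • ev v
      have hx : N x = 1 := by
        rw [map_smul_eq_mul, Real.norm_of_nonneg (by positivity), inv_mul_cancel₀ hz.ne']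
      obtain ⟨F, ⟨hFc, hFd⟩, hF⟩ := hmod x hx
      obtain ⟨i, y, hy, hclose⟩ := exists_close_in_subspace v hlt F hFc hFd
        (show 0 < min (c / (2 * C)) (c * (δ / 2) / C) by positivity)
      set d := segF (v.child hlt i, 1)
      have herr1 : N (d - y) ≤ c / 2 := by
        refine (hN _).2.trans ((mul_le_mul_of_nonneg_left (hclose.trans (min_le_left _ _))
          hC.le).trans (le_of_eq ?_))
        field_simp
      have herr2 : N (d - y) ≤ c * (δ / 2) := by
        refine (hN _).2.trans ((mul_le_mul_of_nonneg_left (hclose.trans (min_le_right _ _))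
          hC.le).trans (le_of_eq ?_))
        field_simp
      have hNd : c ≤ N d :=
        (le_mul_of_one_le_right hc.le (one_le_norm_segF _ (by simp))).trans (hN _).1
      have hNy : c / 2 ≤ N y := by
        have := map_add_le_add N (d - y) y
        rw [sub_add_cancel] at this
        linarith
      have hNypos : 0 < N y := by linarith
      set y' := (N y)⁻¹ • y
      have hy' : N y' = 1 := by
        rw [map_smul_eq_mul, Real.norm_of_nonneg (by positivity), inv_mul_cancel₀ hNypos.ne']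
      set t := N y / N (ev v)
      have ht : t₀ ≤ t :=
        calc t₀ = c / 2 / C := by rw [ht₀, div_div]
          _ ≤ N y / N (ev v) := div_le_div₀ (apply_nonneg N y) hNy hz hzC
      have hgrow := seminorm_mono_step N x y' ht₀pos ht hx
        (hF y' (F.smul_mem _ hy) hy') hδ.le
      have he : x + t • y' = (N (ev v))⁻¹ • (ev v + y) := by
        rw [smul_add, smul_smul]
        congr 2
        simp only [t]; field_simp
      rw [he, map_smul_eq_mul, Real.norm_of_nonneg (by positivity)] at hgrow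
      have hgrow' : (1 + δ) * N (ev v) ≤ N (ev v + y) := by
        rw [inv_mul_eq_div, le_div_iff₀ hz] at hgrow; exact hgrow
      refine ⟨v.child hlt i, by simp [hvn], by simp [hvd], ?_⟩
      rw [← segF_child v hlt i]
      have htri : N (ev v + y) ≤ N (ev v + d) + N (d - y) := by
        have := map_sub_le_add N (ev v + d) (d - y)
        rwa [show ev v + d - (d - y) = ev v + y by abel] at this
      have hcle : c ≤ N (ev v) := le_trans (le_mul_of_one_le_right hc.le
        (one_le_pow₀ (by linarith))) hv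
      calc c * (1 + δ / 2) ^ (k + 1) = (1 + δ / 2) * (c * (1 + δ / 2) ^ k) := by ring
        _ ≤ (1 + δ / 2) * N (ev v) := by gcongr
        _ ≤ N (ev v + d) := by nlinarith
  obtain ⟨v, -, -, hv⟩ := claim m (by omega)
  have hb : 1 + (m:ℝ) * (δ / 2) ≤ (1 + δ / 2) ^ m :=
    one_add_mul_le_pow (by linarith) m
  have := (hN (ev v)).2.trans (mul_le_of_le_one_right hC.le (norm_ev_le v))
  nlinarith [mul_le_mul_of_nonneg_left hb hc.le]

theorem not_aucRenormable : ¬ AUCRenormable X := by
  rintro ⟨N, hN, hmod⟩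
  refine not_auc N hN fun t ht => ?_
  obtain ⟨δ, hδ0, hδ⟩ := EReal.lt_iff_exists_real_btwn.1 (hmod t ht)
  refine ⟨δ, by exact_mod_cast hδ0, fun x hx => ?_⟩
  have h1 := hδ.trans_le (iInf₂_le x hx)
  obtain ⟨F, h1'⟩ := lt_iSup_iff.1 h1
  obtain ⟨hF, h2⟩ := lt_iSup_iff.1 h1'
  refine ⟨F, hF, fun y hy hy1 => ?_⟩
  have h3 := EReal.coe_lt_coe_iff.1 (h2.trans_le (iInf₂_le y ⟨hy, hy1⟩))
  linarith

theorem amucRenormable : AMUCRenormable X := by
  refine ⟨normSeminorm ℝ X, ⟨1, 1, one_pos, one_pos, fun x => by simp⟩, fun t ht => ?_⟩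
  have hpos : (0:ℝ) < (min t 1) ^ 2 / 4096 := by
    have : 0 < min t 1 := lt_min ht one_pos
    positivity
  refine lt_of_lt_of_le (EReal.coe_lt_coe_iff.2 hpos) (le_iInf₂ fun x hx => ?_)
  obtain ⟨F, hFc, hFd, hF⟩ := amuc_X x (by simpa using hx) t ht
  refine le_iSup₂_of_le F ⟨hFc, hFd⟩ (le_iInf₂ fun y hy => EReal.coe_le_coe_iff.2 ?_)
  have := hF y hy.1 (by simpa using hy.2)
  simp only [coe_normSeminorm]
  linarith

theorem not_finiteDimensional_X : ¬ FiniteDimensional ℝ X := by
  intro hfd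
  refine not_auc (normSeminorm ℝ X) ⟨1, 1, one_pos, one_pos, fun x => by simp⟩
    fun t _ => ⟨1, one_pos, fun x _ => ⟨⊥, ⟨?_, inferInstance⟩, fun y hy hy1 => ?_⟩⟩
  · simp
  · rw [Submodule.mem_bot] at hy
    simp [hy] at hy1

end

end Vale.Agent.P069
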