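import Vale.Agent.P069.Tree

/-!
Projections of the tree space onto ancestor-closed sets of nodes, and the key path inequality.
-/

namespace Vale.Agent.P069

open Finset Node

noncomputable section

/-- An ancestor-closed set of nodes containing every base point. -/
structure Cut where
  mem : Node → Prop
  closed : ∀ v k, mem v → mem (v.anc k)
  base : ∀ v : Node, v.dep = 0 → mem v

namespace Cut

variable (A : Cut)

theorem exists_anc_mem (v : Node) : ∃ k, A.mem (v.anc k) :=
  ⟨v.dep, A.base _ (by simp)⟩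

open scoped Classical in
/-- Number of steps to reach the set. -/
def lev (v : Node) : ℕ := Nat.find (A.exists_anc_mem v)

/-- Exit point: nearest ancestor in the set. -/
def exit (v : Node) : Node := v.anc (A.lev v)

theorem exit_mem (v : Node) : A.mem (A.exit v) := by
  classical
  exact Nat.find_spec (A.exists_anc_mem v)

theorem lev_le_dep (v : Node) : A.lev v ≤ v.dep := by
  classical
  exact Nat.find_le (A.base _ (by simp))

theorem mem_anc_of_lev_le (v : Node) {k : ℕ} (h : A.lev v ≤ k) : A.mem (v.anc k) := by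
  have := A.closed _ (k - A.lev v) (A.exit_mem v)
  rwa [exit, anc_anc, Nat.add_sub_cancel' h] at this

theorem not_mem_anc_of_lt (v : Node) {k : ℕ} (h : k < A.lev v) : ¬ A.mem (v.anc k) := by
  classical
  exact Nat.find_min (A.exists_anc_mem v) h

theorem lev_eq_zero {v : Node} (h : A.mem v) : A.lev v = 0 := by
  classical
  exact (Nat.find_eq_zero (A.exists_anc_mem v)).2 (by simpa using h)

theorem exit_eq_self {v : Node} (h : A.mem v) : A.exit v = v := by
  simp [exit, A.lev_eq_zero h]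

@[simp] theorem exit_exit (v : Node) : A.exit (A.exit v) = A.exit v :=
  A.exit_eq_self (A.exit_mem v)

theorem exit_anc_of_le (v : Node) {k : ℕ} (h : k ≤ A.lev v) : A.exit (v.anc k) = A.exit v := by
  have h1 : A.lev (v.anc k) = A.lev v - k := by
    classical
    refine (Nat.find_eq_iff _).2 ⟨?_, fun j hj => ?_⟩
    · rw [anc_anc, Nat.add_sub_cancel' h]; exact A.exit_mem v
    · rw [anc_anc]; exact A.not_mem_anc_of_lt v (by omega)
  rw [exit, exit, h1, anc_anc, Nat.add_sub_cancel' h]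

theorem exit_anc_of_lt (v : Node) {k : ℕ} (h : A.lev v < k) : A.exit (v.anc k) = v.anc k :=
  A.exit_eq_self (A.mem_anc_of_lev_le v h.le)

theorem inc_comp_exit (F : Node → ℝ) (v : Node) (k : ℕ) :
    inc (fun u => F (A.exit u)) (v, k) = inc F (A.exit v, k - A.lev v) := by
  rcases le_or_gt k (A.lev v) with h | h
  · simp [inc, A.exit_anc_of_le v h, Nat.sub_eq_zero_of_le h]
  · simp only [inc]
    rw [A.exit_anc_of_lt v h]
    simp only [exit, anc_anc, Nat.add_sub_cancel' h.le]

theorem inc_sub_exit (F : Node → ℝ) (v : Node) (k : ℕ) :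
    inc (fun u => F u - F (A.exit u)) (v, k) = inc F (v, min k (A.lev v)) := by
  rcases le_or_gt k (A.lev v) with h | h
  · simp [inc, A.exit_anc_of_le v h, min_eq_left h]
  · simp [inc, A.exit_anc_of_lt v h, min_eq_right h.le]
    rfl

theorem cover_exit_subset (v : Node) (k : ℕ) :
    cover (A.exit v, k - A.lev v) ⊆ cover (v, k) :=
  cover_anc_subset v _ _ k (by omega)

theorem cover_min_subset (v : Node) (k : ℕ) :
    cover (v, min k (A.lev v)) ⊆ cover (v, k) :=
  cover_mono v (min_le_left _ _)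

end Cut

theorem disjFam_map {m : ℕ} {S : Fin m → Seg} (hS : DisjFam S) (T : Seg → Seg)
    (hT : ∀ p, cover (T p) ⊆ cover p) : DisjFam fun i => T (S i) :=
  fun _ _ h => (hS h).mono (hT _) (hT _)

/-- A function dominated segment-wise, through sub-segments, by an element of the space. -/
theorem sum_sq_le_of_dominated (F : JT) (G : Node → ℝ)
    (h : ∀ p : Seg, ∃ q : Seg, cover q ⊆ cover p ∧ |inc G p| ≤ |inc F q|)
    (m : ℕ) (S : Fin m → Seg) (hS : DisjFam S) : ∑ i, inc G (S i) ^ 2 ≤ ‖F‖ ^ 2 := by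
  choose T hT hle using h
  calc ∑ i, inc G (S i) ^ 2 ≤ ∑ i, inc F (T (S i)) ^ 2 :=
        Finset.sum_le_sum fun i _ => sq_le_sq.2 (hle (S i))
    _ ≤ ‖F‖ ^ 2 := sum_inc_sq_le F _ (disjFam_map hS T hT)

namespace Cut

variable (A : Cut)

theorem dominated_comp (F : JT) (p : Seg) :
    ∃ q : Seg, cover q ⊆ cover p ∧ |inc (fun u => F (A.exit u)) p| ≤ |inc F q| :=
  ⟨(A.exit p.1, p.2 - A.lev p.1), A.cover_exit_subset _ _, (congrArg abs
    (A.inc_comp_exit (F : Node → ℝ) p.1 p.2)).le⟩

theorem dominated_rest (F : JT) (p : Seg) :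
    ∃ q : Seg, cover q ⊆ cover p ∧ |inc (fun u => F u - F (A.exit u)) p| ≤ |inc F q| :=
  ⟨(p.1, min p.2 (A.lev p.1)), A.cover_min_subset _ _, (congrArg abs
    (A.inc_sub_exit (F : Node → ℝ) p.1 p.2)).le⟩

/-- The projection onto the set, as a linear map. -/
def projₗ : JT →ₗ[ℝ] JT where
  toFun F := mkJT (fun u => F (A.exit u)) ‖F‖
    (fun v hv => by
      show F (A.exit v) = 0
      rw [A.exit_eq_self (A.base v hv)]; exact jt_base F v hv)
    (sum_sq_le_of_dominated F _ (A.dominated_comp F))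
  map_add' F G := jt_ext fun v => by simp
  map_smul' a F := jt_ext fun v => by simp

/-- The projection onto the set. -/
def proj : JT →L[ℝ] JT := A.projₗ.mkContinuous 1 fun F => by
  rw [one_mul]
  exact jt_norm_le (norm_nonneg F) (sum_sq_le_of_dominated F _ (A.dominated_comp F))

@[simp] theorem proj_apply (F : JT) (v : Node) : A.proj F v = F (A.exit v) := rfl

theorem norm_proj_le (F : JT) : ‖A.proj F‖ ≤ ‖F‖ :=
  jt_norm_le (norm_nonneg F) (sum_sq_le_of_dominated F _ (A.dominated_comp F))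

theorem norm_rest_le (F : JT) : ‖F - A.proj F‖ ≤ ‖F‖ :=
  jt_norm_le (norm_nonneg F) (sum_sq_le_of_dominated F _ (A.dominated_rest F))

@[simp] theorem proj_proj (F : JT) : A.proj (A.proj F) = A.proj F :=
  jt_ext fun v => by simp

end Cut

/-- The path inequality: for every scale there is one sign which avoids first order growth. -/
theorem exists_sign (a : ℕ → ℝ) (ha : a 0 = 0) {r : ℝ} (hr : 0 ≤ r) :
    ∃ σ : ℝ, (σ = 1 ∨ σ = -1) ∧ ∀ i : ℕ, ∀ b : ℝ, 0 ≤ b → b ≤ r →
      ∃ j, j ≤ i ∧ (a i + σ * b) ^ 2 ≤ a j ^ 2 + (a i - a j) ^ 2 + 3 * r ^ 2 := by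
  have small : ∀ σ : ℝ, (σ = 1 ∨ σ = -1) → ∀ i : ℕ, ∀ b : ℝ, 0 ≤ b → b ≤ r → σ * a i ≤ r →
      (a i + σ * b) ^ 2 ≤ a 0 ^ 2 + (a i - a 0) ^ 2 + 3 * r ^ 2 := by
    intro σ hσ i b hb hbr h
    have hs : σ ^ 2 = 1 := by rcases hσ with rfl | rfl <;> norm_num
    rw [ha]
    have hb2 : σ ^ 2 * b ^ 2 = b ^ 2 := by rw [hs, one_mul]
    nlinarith [mul_le_mul_of_nonneg_right h hb, mul_le_mul_of_nonneg_left hbr hr,
      mul_le_mul hbr hbr hb hr]
  classical
  by_cases hex : ∃ i, r < |a i|
  · set i₀ := Nat.find hex with hi₀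
    have hi : r < |a i₀| := Nat.find_spec hex
    obtain ⟨σ, hσ, hneg⟩ : ∃ σ : ℝ, (σ = 1 ∨ σ = -1) ∧ σ * a i₀ < -r := by
      rcases le_or_gt 0 (a i₀) with h | h
      · exact ⟨-1, Or.inr rfl, by rw [abs_of_nonneg h] at hi; linarith⟩
      · exact ⟨1, Or.inl rfl, by rw [abs_of_neg h] at hi; linarith⟩
    refine ⟨σ, hσ, fun i b hb hbr => ?_⟩
    rcases le_or_gt (σ * a i) r with h | h
    · exact ⟨0, Nat.zero_le i, small σ hσ i b hb hbr h⟩
    · refine ⟨i₀, Nat.find_le ?_, ?_⟩
      · rcases hσ with rfl | rfl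
        · rw [one_mul] at h; exact h.trans_le (le_abs_self _)
        · rw [neg_one_mul] at h; exact h.trans_le (neg_le_abs _)
      · have hs : σ ^ 2 = 1 := by rcases hσ with rfl | rfl <;> norm_num
        have e : -(a i * a i₀) = σ * a i * (-(σ * a i₀)) := by
          calc -(a i * a i₀) = -(σ ^ 2 * (a i * a i₀)) := by rw [hs, one_mul]
            _ = σ * a i * (-(σ * a i₀)) := by ring
        have e2 : σ * a i * r ≤ σ * a i * (-(σ * a i₀)) :=
          mul_le_mul_of_nonneg_left (by linarith) (by linarith)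
        have e3 : σ * a i * b ≤ σ * a i * r := mul_le_mul_of_nonneg_left hbr (by linarith)
        have hb2 : σ ^ 2 * b ^ 2 = b ^ 2 := by rw [hs, one_mul]
        nlinarith [mul_le_mul hbr hbr hb hr, sq_nonneg (a i₀), sq_nonneg r]
  · push Not at hex
    refine ⟨1, Or.inl rfl, fun i b hb hbr => ⟨0, Nat.zero_le i, small 1 (Or.inl rfl) i b hb hbr ?_⟩⟩
    rw [one_mul]; exact (le_abs_self _).trans (hex i)

end

end Vale.Agent.P069
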