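import Vale.Agent.P069.Density

/-!
Reflexivity of the tree space and of its dual.
-/

namespace Vale.Agent.P069

open Finset Node

noncomputable section

/-- Evaluation at a node. -/
def evₗ (v : Node) : JT →ₗ[ℝ] ℝ where
  toFun F := F v
  map_add' F G := rfl
  map_smul' a F := rfl

theorem abs_apply_le (F : JT) (v : Node) : |F v| ≤ ‖F‖ := by
  refine abs_le_of_sq_le_sq ?_ (norm_nonneg F)
  have h := sum_inc_sq_le F (fun _ : Unit => (v, v.dep)) fun i j h => absurd (Subsingleton.elim i j) h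
  simpa [inc_dep] using h

/-- Evaluation at a node: the indicator functional of the branch above it. -/
def ev (v : Node) : StrongDual ℝ JT :=
  (evₗ v).mkContinuous 1 fun F => by rw [one_mul]; exact abs_apply_le F v

@[simp] theorem ev_apply (v : Node) (F : JT) : ev v F = F v := rfl

theorem norm_ev_le (v : Node) : ‖ev v‖ ≤ 1 :=
  LinearMap.mkContinuous_norm_le _ zero_le_one _

/-- The functional given by a segment. -/
def segF (p : Seg) : StrongDual ℝ JT := ev p.1 - ev (p.1.anc p.2)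

@[simp] theorem segF_apply (p : Seg) (F : JT) : segF p F = inc F p := rfl

theorem norm_segF_comb_le {ι : Type*} [Fintype ι] (S : ι → Seg) (hS : DisjFam S) (a : ι → ℝ) :
    ‖∑ i, a i • segF (S i)‖ ≤ Real.sqrt (∑ i, a i ^ 2) := by
  refine ContinuousLinearMap.opNorm_le_bound _ (Real.sqrt_nonneg _) fun F => ?_
  rw [Real.norm_eq_abs]
  refine abs_le_of_sq_le_sq ?_ (by positivity)
  rw [mul_pow, Real.sq_sqrt (Finset.sum_nonneg fun i _ => sq_nonneg _)]
  simp only [ContinuousLinearMap.sum_apply, ContinuousLinearMap.smul_apply, smul_eq_mul,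
    segF_apply]
  exact (Finset.sum_mul_sq_le_sq_mul_sq _ _ _).trans
    (mul_le_mul_of_nonneg_left (sum_inc_sq_le F S hS) (Finset.sum_nonneg fun i _ => sq_nonneg _))

/-- Square sums of a functional on the dual along disjoint segments. -/
theorem sum_dual_segF_sq_le {ι : Type*} [Fintype ι] (Φ : StrongDual ℝ (StrongDual ℝ JT))
    (S : ι → Seg) (hS : DisjFam S) : ∑ i, Φ (segF (S i)) ^ 2 ≤ ‖Φ‖ ^ 2 := by
  set T := ∑ i, Φ (segF (S i)) ^ 2 with hT
  have hT0 : 0 ≤ T := Finset.sum_nonneg fun i _ => sq_nonneg _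
  set x := ∑ i, Φ (segF (S i)) • segF (S i) with hx
  have h1 : Φ x = T := by simp [hx, hT, sq]
  have h2 : ‖x‖ ≤ Real.sqrt T := norm_segF_comb_le S hS _
  have h3 : T ≤ ‖Φ‖ * Real.sqrt T :=
    (h1 ▸ (le_abs_self _).trans (Φ.le_opNorm x)).trans (by gcongr)
  have h4 : T ^ 2 ≤ ‖Φ‖ ^ 2 * T := by
    have := pow_le_pow_left₀ hT0 h3 2
    rwa [mul_pow, Real.sq_sqrt hT0] at this
  rcases hT0.eq_or_lt with h | h
  · rw [← h]; positivity
  · nlinarith

/-- The restriction of a functional to a finite set is a combination of segment functionals. -/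
theorem comp_proj_eq_comb (x : StrongDual ℝ JT) (D : Finset Node) :
    ∃ B : Finset Node, x.comp (finCut D).proj = ∑ v ∈ B, x (unit v) • segF (v, 1) := by
  classical
  obtain ⟨B, hB⟩ := finCut_finite D
  refine ⟨B.filter fun v => (finCut D).mem v, ?_⟩
  ext F
  have hP : (finCut D).proj F =
      ∑ v ∈ B.filter (fun v => (finCut D).mem v), inc F (v, 1) • unit v := by
    refine jt_ext fun u => ?_
    rw [← inc_dep ((finCut D).proj F) u, ← inc_dep (∑ v ∈ _, inc F (v, 1) • unit v) u,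
      inc_telescope, inc_telescope]
    refine Finset.sum_congr rfl fun j hj => ?_
    have hd : 0 < (u.anc j).dep := by simp at hj ⊢; omega
    rw [inc_proj_one, inc_comb_one _ _ _ hd]
    by_cases h : (finCut D).mem (u.anc j)
    · simp [h, hB _ h hd]
    · simp [h]
  simp [hP, mul_comm]

theorem norm_sub_comp_proj_le (x : StrongDual ℝ JT) {η : ℝ} (hη : 0 < η) :
    ∃ D : Finset Node, ‖x - x.comp (finCut D).proj‖ ≤ η := by
  obtain ⟨D, hD⟩ := exists_finCut_near x hη
  exact ⟨D, ContinuousLinearMap.opNorm_le_bound _ hη.le fun F => hD F⟩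

theorem inclusion_surjective :
    Function.Surjective (NormedSpace.inclusionInDoubleDual ℝ JT) := by
  intro Φ
  let F : Node → ℝ := fun v => Φ (ev v)
  have h0 : ∀ v : Node, v.dep = 0 → F v = 0 := by
    intro v hv
    have : ev v = 0 := by ext G; simp [jt_base G v hv]
    simp [F, this]
  have hinc : ∀ p, inc F p = Φ (segF p) := fun p => by simp [inc, F, segF]
  have hF : ∀ (m : ℕ) (S : Fin m → Seg), DisjFam S → ∑ i, inc F (S i) ^ 2 ≤ ‖Φ‖ ^ 2 := by
    intro m S hS
    simp only [hinc]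
    exact sum_dual_segF_sq_le Φ S hS
  let G := mkJT F ‖Φ‖ h0 hF
  refine ⟨G, ?_⟩
  ext x
  rw [NormedSpace.dual_def]
  refine eq_of_forall_dist_le fun e he => ?_
  obtain ⟨D, hD⟩ := norm_sub_comp_proj_le x
    (show 0 < e / (‖G‖ + ‖Φ‖ + 1) by positivity)
  set x' := x.comp (finCut D).proj with hx'
  obtain ⟨B, hB⟩ := comp_proj_eq_comb x D
  have heq : x' G = Φ x' := by
    rw [hx', hB]
    simp [mkJT_coe, G, hinc]
  rw [Real.dist_eq]
  calc |x G - Φ x| = |(x - x') G - Φ (x - x')| := by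
        simp only [map_sub, ContinuousLinearMap.sub_apply, heq]; ring_nf
    _ ≤ |(x - x') G| + |Φ (x - x')| := abs_sub _ _
    _ ≤ ‖x - x'‖ * ‖G‖ + ‖Φ‖ * ‖x - x'‖ :=
        add_le_add ((x - x').le_opNorm G) (Φ.le_opNorm _)
    _ = ‖x - x'‖ * (‖G‖ + ‖Φ‖) := by ring
    _ ≤ e / (‖G‖ + ‖Φ‖ + 1) * (‖G‖ + ‖Φ‖) := by gcongr
    _ ≤ e := by
        rw [div_mul_eq_mul_div, div_le_iff₀ (by positivity)]
        nlinarith [norm_nonneg G, norm_nonneg Φ]

/-- The dual of the tree space: the example. -/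
abbrev X : Type := StrongDual ℝ JT

theorem inclusion_dual_surjective :
    Function.Surjective (NormedSpace.inclusionInDoubleDual ℝ X) := by
  intro Ψ
  refine ⟨Ψ.comp (NormedSpace.inclusionInDoubleDual ℝ JT), ?_⟩
  ext Φ
  obtain ⟨G, rfl⟩ := inclusion_surjective Φ
  simp

end

end Vale.Agent.P069
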