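import Mathlib.Analysis.Normed.Lp.lpSpace
import Mathlib.Analysis.InnerProductSpace.PiL2
import Mathlib.Analysis.Normed.Module.DoubleDual
import Mathlib.Algebra.Order.BigOperators.Ring.Finset

/-!
The James-tree type space over the forest of countably branching trees of all finite heights.
Functions on the tree are recorded through their cumulative sums along paths.
-/

namespace Vale.Agent.P069

open Finset

noncomputable section

/-- A node of the tree number `n` (of height `n`): a path of length at most `n`, written backwards.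
The empty path is the base point of the tree. -/
structure Node where
  n : ℕ
  s : List ℕ
  le : s.length ≤ n

namespace Node

/-- Depth of a node. -/
def dep (v : Node) : ℕ := v.s.length

/-- The `k`-th ancestor (stops at the base point). -/
def anc (v : Node) (k : ℕ) : Node :=
  ⟨v.n, v.s.drop k, (List.length_drop (i := k) (l := v.s)).le.trans ((Nat.sub_le _ _).trans v.le)⟩

theorem ext' {v w : Node} (h1 : v.n = w.n) (h2 : v.s = w.s) : v = w := by
  cases v; cases w; simp_all

theorem dep_le (v : Node) : v.dep ≤ v.n := v.le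

@[simp] theorem anc_n (v : Node) (k : ℕ) : (v.anc k).n = v.n := rfl

@[simp] theorem dep_anc (v : Node) (k : ℕ) : (v.anc k).dep = v.dep - k := by
  simp [dep, anc]

@[simp] theorem anc_zero (v : Node) : v.anc 0 = v := ext' rfl (by simp [anc])

@[simp] theorem anc_anc (v : Node) (i j : ℕ) : (v.anc i).anc j = v.anc (i + j) :=
  ext' rfl (by simp [anc, List.drop_drop])

theorem anc_of_dep_le (v : Node) {k : ℕ} (h : v.dep ≤ k) : v.anc k = v.anc v.dep :=
  ext' rfl (by
    simp only [anc]
    rw [List.drop_eq_nil_of_le (as := v.s) h, List.drop_eq_nil_of_le (as := v.s) (le_refl v.dep)])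

theorem anc_eq_self_of_dep_eq_zero (v : Node) (h : v.dep = 0) (k : ℕ) : v.anc k = v := by
  rw [v.anc_of_dep_le (by omega), h, anc_zero]

/-- The base point of the tree number `n`. -/
def base (n : ℕ) : Node := ⟨n, [], Nat.zero_le n⟩

/-- The `i`-th child of a node which is not at the bottom of its tree. -/
def child (v : Node) (h : v.dep < v.n) (i : ℕ) : Node := ⟨v.n, i :: v.s, h⟩

@[simp] theorem dep_child (v : Node) (h : v.dep < v.n) (i : ℕ) :
    (v.child h i).dep = v.dep + 1 := rfl

@[simp] theorem child_n (v : Node) (h : v.dep < v.n) (i : ℕ) : (v.child h i).n = v.n := rfl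

@[simp] theorem anc_child (v : Node) (h : v.dep < v.n) (i : ℕ) :
    (v.child h i).anc 1 = v := ext' rfl (by simp [anc, child])

theorem child_injective (v : Node) (h : v.dep < v.n) : Function.Injective (v.child h) := by
  intro i j hij
  have := congrArg Node.s hij
  simp [child] at this
  exact this

end Node

open Node

/-- Segments: a bottom node and a length. -/
abbrev Seg := Node × ℕ

/-- The set of nodes of positive depth covered by a segment. -/
def cover (p : Seg) : Set Node := {u | ∃ j, j < p.2 ∧ j < p.1.dep ∧ p.1.anc j = u}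

/-- The sum over a segment, computed from cumulative sums. -/
def inc (F : Node → ℝ) (p : Seg) : ℝ := F p.1 - F (p.1.anc p.2)

theorem inc_add (F G : Node → ℝ) (p : Seg) : inc (F + G) p = inc F p + inc G p := by
  simp [inc]; ring

theorem inc_sub (F G : Node → ℝ) (p : Seg) : inc (F - G) p = inc F p - inc G p := by
  simp [inc]; ring

theorem inc_smul (a : ℝ) (F : Node → ℝ) (p : Seg) : inc (a • F) p = a * inc F p := by
  simp [inc]; ring

theorem inc_eq_zero_of_dep (F : Node → ℝ) (v : Node) (k : ℕ) (h : v.dep = 0) :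
    inc F (v, k) = 0 := by
  simp [inc, v.anc_eq_self_of_dep_eq_zero h]

theorem inc_zero_len (F : Node → ℝ) (v : Node) : inc F (v, 0) = 0 := by simp [inc]

theorem inc_split (F : Node → ℝ) (v : Node) (i j : ℕ) :
    inc F (v, i + j) = inc F (v, i) + inc F (v.anc i, j) := by
  simp [inc]

/-- Pairwise disjointness of an indexed collection of segments. -/
def DisjFam {ι : Type*} (S : ι → Seg) : Prop :=
  Pairwise fun i j => Disjoint (cover (S i)) (cover (S j))

theorem cover_anc_subset (v : Node) (c l k : ℕ) (h : c + l ≤ k ∨ l = 0) :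
    cover (v.anc c, l) ⊆ cover (v, k) := by
  rintro u ⟨j, hj, hd, rfl⟩
  simp only [dep_anc] at hd
  refine ⟨c + j, ?_, ?_, ?_⟩
  · rcases h with h | h <;> simp_all <;> omega
  · show c + j < v.dep
    omega
  · simp

theorem cover_mono (v : Node) {l k : ℕ} (h : l ≤ k) : cover (v, l) ⊆ cover (v, k) := by
  rintro u ⟨j, hj, hd, rfl⟩
  exact ⟨j, lt_of_lt_of_le hj h, hd, rfl⟩

theorem anc_mem_cover (v : Node) {c k : ℕ} (h : c < k) (h' : c < v.dep) :
    v.anc c ∈ cover (v, k) := ⟨c, h, h', rfl⟩

theorem n_eq_of_mem_cover {p : Seg} {u : Node} (h : u ∈ cover p) : u.n = p.1.n := by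
  obtain ⟨j, -, -, rfl⟩ := h
  rfl

theorem cover_one_subset (v : Node) : cover (v, 1) ⊆ {v} := by
  rintro u ⟨j, hj, -, rfl⟩
  obtain rfl : j = 0 := by simpa using hj
  simp

theorem disjFam_one {ι : Type*} (f : ι → Node) (hf : Function.Injective f) :
    DisjFam fun i => (f i, 1) := by
  intro i j hij
  rw [Set.disjoint_left]
  intro u hu hu'
  exact hij (hf ((Set.mem_singleton_iff.1 (cover_one_subset _ hu)).symm.trans
    (Set.mem_singleton_iff.1 (cover_one_subset _ hu'))))

/-- Finite families of disjoint segments. -/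
abbrev Fam := (m : ℕ) × {S : Fin m → Seg // DisjFam S}

instance : Nonempty Fam := ⟨⟨0, Fin.elim0, fun i => i.elim0⟩⟩

/-- The values of a function on all families of segments. -/
def famVal : (Node → ℝ) →ₗ[ℝ] ((P : Fam) → EuclideanSpace ℝ (Fin P.1)) where
  toFun F P := WithLp.toLp 2 fun i => inc F (P.2.1 i)
  map_add' F G := by
    funext P; ext i; simp [inc_add]
  map_smul' a F := by
    funext P; ext i; simp [inc_smul]

theorem norm_famVal (F : Node → ℝ) (P : Fam) :
    ‖famVal F P‖ ^ 2 = ∑ i, inc F (P.2.1 i) ^ 2 := by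
  rw [EuclideanSpace.norm_sq_eq]
  simp [famVal, sq_abs]

/-- Cumulative functions with bounded square sums over families of disjoint segments. -/
def jtSub : Submodule ℝ (Node → ℝ) where
  carrier := {F | (∀ v : Node, v.dep = 0 → F v = 0) ∧ Memℓp (famVal F) ⊤}
  zero_mem' := ⟨fun _ _ => rfl, by rw [map_zero]; exact zero_memℓp⟩
  add_mem' := fun hF hG =>
    ⟨fun v hv => by simp [hF.1 v hv, hG.1 v hv], by rw [map_add]; exact hF.2.add hG.2⟩
  smul_mem' := fun a F hF =>
    ⟨fun v hv => by simp [hF.1 v hv], by rw [map_smul]; exact hF.2.const_smul a⟩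

/-- The tree space. -/
def JT : Type := jtSub

instance : AddCommGroup JT := inferInstanceAs (AddCommGroup jtSub)
instance : Module ℝ JT := inferInstanceAs (Module ℝ jtSub)
instance : CoeFun JT fun _ => Node → ℝ := ⟨fun F => Subtype.val F⟩

theorem jt_ext {F G : JT} (h : ∀ v : Node, F v = G v) : F = G :=
  Subtype.ext (funext h)

@[simp] theorem jt_add_apply (F G : JT) (v : Node) : (F + G) v = F v + G v := rfl
@[simp] theorem jt_sub_apply (F G : JT) (v : Node) : (F - G) v = F v - G v := rfl
@[simp] theorem jt_smul_apply (a : ℝ) (F : JT) (v : Node) : (a • F) v = a * F v := rfl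
@[simp] theorem jt_zero_apply (v : Node) : (0 : JT) v = 0 := rfl
@[simp] theorem jt_neg_apply (F : JT) (v : Node) : (-F) v = -F v := rfl

theorem jt_base (F : JT) (v : Node) (h : v.dep = 0) : F v = 0 := F.2.1 v h

theorem inc_dep (F : JT) (v : Node) : inc F (v, v.dep) = F v := by
  simp [inc, jt_base F (v.anc v.dep) (by simp)]

/-- The embedding defining the norm. -/
def emb : JT →ₗ[ℝ] lp (fun P : Fam => EuclideanSpace ℝ (Fin P.1)) ⊤ where
  toFun F := ⟨famVal F, F.2.2⟩
  map_add' F G := by
    apply lp.ext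
    exact map_add famVal _ _
  map_smul' a F := by
    apply lp.ext
    exact map_smul famVal _ _

@[simp] theorem emb_apply (F : JT) (P : Fam) : emb F P = famVal F P := rfl

theorem emb_injective : Function.Injective emb := by
  intro F G h
  refine jt_ext fun v => ?_
  let P : Fam := ⟨1, fun _ => (v, v.dep), fun i j h => absurd (Subsingleton.elim i j) h⟩
  have h2 : famVal F P = famVal G P := by rw [← emb_apply, ← emb_apply, h]
  have h3 := congrArg (fun x : EuclideanSpace ℝ (Fin P.1) => x (0 : Fin 1)) h2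
  simp [famVal, P, inc_dep] at h3
  exact h3

instance : NormedAddCommGroup JT := NormedAddCommGroup.induced JT _ emb emb_injective
instance : NormedSpace ℝ JT := NormedSpace.induced ℝ JT _ emb

theorem jt_norm_def (F : JT) : ‖F‖ = ‖emb F‖ := rfl

theorem sum_inc_sq_le {ι : Type*} [Fintype ι] (F : JT) (S : ι → Seg) (hS : DisjFam S) :
    ∑ i, inc F (S i) ^ 2 ≤ ‖F‖ ^ 2 := by
  classical
  let e := (Fintype.equivFin ι).symm
  let P : Fam := ⟨Fintype.card ι, S ∘ e, fun i j h => hS (e.injective.ne h)⟩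
  have h1 : ‖emb F P‖ ≤ ‖emb F‖ := lp.norm_apply_le_norm ENNReal.top_ne_zero _ P
  calc ∑ i, inc F (S i) ^ 2 = ∑ i : Fin (Fintype.card ι), inc F (S (e i)) ^ 2 :=
        (e.sum_comp fun i => inc F (S i) ^ 2).symm
    _ = ‖emb F P‖ ^ 2 := (norm_famVal F P).symm
    _ ≤ ‖F‖ ^ 2 := pow_le_pow_left₀ (norm_nonneg _) h1 2

theorem sum_finset_inc_sq_le {ι : Type*} (s : Finset ι) (F : JT) (S : ι → Seg)
    (hS : ∀ i ∈ s, ∀ j ∈ s, i ≠ j → Disjoint (cover (S i)) (cover (S j))) :
    ∑ i ∈ s, inc F (S i) ^ 2 ≤ ‖F‖ ^ 2 := by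
  rw [← Finset.sum_coe_sort]
  exact sum_inc_sq_le F (fun i : s => S i)
    fun i j h => hS i i.2 j j.2 fun h' => h (Subtype.ext h')

theorem jt_norm_le {F : JT} {C : ℝ} (hC : 0 ≤ C)
    (h : ∀ (m : ℕ) (S : Fin m → Seg), DisjFam S → ∑ i, inc F (S i) ^ 2 ≤ C ^ 2) : ‖F‖ ≤ C := by
  refine lp.norm_le_of_forall_le hC fun P => ?_
  have h1 := h P.1 P.2.1 P.2.2
  rw [← norm_famVal] at h1
  exact (pow_le_pow_iff_left₀ (norm_nonneg _) hC two_ne_zero).1 h1

theorem exists_fam_near (F : JT) {ε : ℝ} (hε : 0 < ε) :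
    ∃ (m : ℕ) (S : Fin m → Seg), DisjFam S ∧ ‖F‖ ^ 2 - ε ≤ ∑ i, inc F (S i) ^ 2 := by
  by_cases h0 : ‖F‖ ^ 2 ≤ ε
  · exact ⟨0, Fin.elim0, fun i => i.elim0, by simpa using h0⟩
  · push Not at h0
    by_contra hcon
    push Not at hcon
    have hs : ‖F‖ ≤ Real.sqrt (‖F‖ ^ 2 - ε) := by
      refine jt_norm_le (Real.sqrt_nonneg _) fun m S hS => ?_
      rw [Real.sq_sqrt (by linarith)]
      exact (hcon m S hS).le
    have := pow_le_pow_left₀ (norm_nonneg F) hs 2
    rw [Real.sq_sqrt (by linarith)] at this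
    linarith

/-- Build an element of the space from a bound on the square sums. -/
def mkJT (F : Node → ℝ) (C : ℝ) (h0 : ∀ v : Node, v.dep = 0 → F v = 0)
    (h : ∀ (m : ℕ) (S : Fin m → Seg), DisjFam S → ∑ i, inc F (S i) ^ 2 ≤ C ^ 2) : JT :=
  ⟨F, h0, memℓp_infty ⟨|C|, by
    rintro x ⟨P, rfl⟩
    have h1 := h P.1 P.2.1 P.2.2
    rw [← norm_famVal, ← sq_abs C] at h1
    exact (pow_le_pow_iff_left₀ (norm_nonneg _) (abs_nonneg C) two_ne_zero).1 h1⟩⟩

@[simp] theorem mkJT_apply (F : Node → ℝ) (C : ℝ) (h0 h) (v : Node) :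
    mkJT F C h0 h v = F v := rfl

theorem mkJT_coe (F : Node → ℝ) (C : ℝ) (h0 h) : (mkJT F C h0 h : Node → ℝ) = F := rfl

theorem mkJT_norm_le (F : Node → ℝ) (C : ℝ) (h0 h) : ‖mkJT F C h0 h‖ ≤ |C| :=
  jt_norm_le (abs_nonneg C) fun m S hS => by rw [sq_abs]; exact h m S hS

end

end Vale.Agent.P069
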